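import Vale.Agent.P281.H495.UL.Any

/-!
# P281, T-UR (helper495): mixed Gauss maps and arbitrary horizontal coefficients, for any class of
manifolds `X` (for instance: Kähler manifolds, the class C)
-/

open Set Filter Metric MeasureTheory Vale.Agent.P281 Vale.Agent.P281.H713
open Vale.Agent.P272.K (Chart IsKahler IsHermitian Cm)
open Vale.Agent.P281.MF Vale.Agent.P281.ISO Vale.Agent.P281.H713.TZ
open Vale.Agent.P281.H64.Thin (IsThinSet)
open Vale.Agent.P281.H64.Gen (IsSmallSet NoExc ExcOne)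

open scoped Topology ContDiff Manifold

set_option linter.all false

noncomputable section

namespace Vale.Agent.P281.H495.UL

open Vale.Agent.P281.H511.UL (XGaussRank TULStmt)
open Vale.Agent.P281.H969.TLN (NGaussRank TLNStmt cnt)

/-- **T-UR**, for the `X` with `P`: `𝒟` a finite set of divisors in the support of `Δ`, those of coefficient `< 1` mapped
onto `Y`; the mixed Gauss map (full poles along `𝒟`) of the very general fibres has rank at least `r`;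
and they have one nonzero product of `d` mixed forms with poles only along the `D ∈ 𝒟` with
`Δ D = 1`, or one nonzero `N`-fold product of forms `dlog u_1 ∧ ⋯ ∧ dlog u_d` in less than `N Δ D`
factors of which `D` occurs, for all `D ∈ 𝒟` with `Δ D < 1`. -/
def TURP (P : ∀ (n : ℕ) (X : Type) [TopologicalSpace X] [ChartedSpace (Cm n) X], Prop) : Prop :=
  ∀ (p d q q₁ m r N : ℕ) (X Y : Type) [TopologicalSpace X] [ChartedSpace (Cm (p + d)) X]
    [TopologicalSpace Y] [ChartedSpace (Cm p) Y] (f : X → Y) (Δ : Set X → ℝ)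
    (a : Fin q → Set X → ℤ) (a₁ : Fin q₁ → Set X → ℤ) (a₂ : Fin 1 → Fin N → Fin d → Set X → ℤ),
    0 < d → H511.Surf.IsFibration (Cm (p + d)) (Cm p) f Δ →
    P (p + d) X →
    ∀ 𝒟 𝒟₁ : Finset (Set X), (∀ D ∈ 𝒟, Δ D ≠ 0 ∧ (Δ D < 1 → f '' D = univ)) →
    (∀ D ∈ 𝒟₁, Δ D = 1) →
    ∀ H₀ : ℕ → Set Y, (∀ k, IsThinSet (Cm p) (H₀ k)) →
    ((∀ y, (∀ k, y ∉ H₀ k) → ∃ (F : Type) (_ : TopologicalSpace F) (_ : T2Space F)
        (_ : ChartedSpace (Cm d) F) (i : F → X), H511.Surf.IsFibre (Cm (p + d)) (Cm d) f y i ∧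
        (∀ x, (i ⁻¹' {x}).encard ≤ m) ∧ XGaussRank (p + d) d i 𝒟₁ a₁ 0) ∨
      0 < N ∧ (∀ D ∈ 𝒟, Δ D < 1 → (cnt (a₂ 0) D : ℝ) < N * Δ D) ∧
      ∀ y, (∀ k, y ∉ H₀ k) → ∃ (F : Type) (_ : TopologicalSpace F) (_ : ChartedSpace (Cm d) F)
        (i : F → X), H511.Surf.IsFibre (Cm (p + d)) (Cm d) f y i ∧ Function.Injective i ∧
        NGaussRank (p + d) N d i 𝒟 a₂) →
    (∀ y, (∀ k, y ∉ H₀ k) → ∃ (F : Type) (_ : TopologicalSpace F) (_ : T2Space F)
        (_ : ChartedSpace (Cm d) F) (i : F → X), H511.Surf.IsFibre (Cm (p + d)) (Cm d) f y i ∧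
        (∀ x, (i ⁻¹' {x}).encard ≤ m) ∧ XGaussRank (p + d) d i 𝒟 a r) →
    ∃ H : ℕ → Set Y, (∀ k, IsThinSet (Cm p) (H k)) ∧ ∀ y, (∀ k, y ∉ H k) →
      ∀ (F : Type) [TopologicalSpace F] [ChartedSpace (Cm d) F] (i : F → X),
        H511.Surf.IsFibre (Cm (p + d)) (Cm d) f y i →
        ((r : ℕ∞) : WithBot ℕ∞) + TZ.S.kodF (p + d) p Δ (id : X → X) f ≤
            TZ.S.kodX (Cm (p + d)) Δ ∧
          (TZ.S.kodR (Cm (p + d)) (Cm d) i Δ ≤ ((r : ℕ∞) : WithBot ℕ∞) →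
            TZ.S.kodR (Cm (p + d)) (Cm d) i Δ + TZ.S.kodF (p + d) p Δ (id : X → X) f ≤
              TZ.S.kodX (Cm (p + d)) Δ ∧
            (NoExc (Cm (p + d)) (Cm p) f → H511.Surf.Q1 (Cm (p + d)) (Cm p) (Cm d) f Δ i))

/-- **T-UL**, for the `X` with `P` -/
def TULP (P : ∀ (n : ℕ) (X : Type) [TopologicalSpace X] [ChartedSpace (Cm n) X], Prop) : Prop :=
  ∀ (p d q m r : ℕ) (X Y : Type) [TopologicalSpace X] [ChartedSpace (Cm (p + d)) X]
    [TopologicalSpace Y] [ChartedSpace (Cm p) Y] (f : X → Y) (Δ : Set X → ℝ)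
    (a : Fin q → Set X → ℤ), 0 < d →
    H511.Surf.IsFibration (Cm (p + d)) (Cm p) f Δ → P (p + d) X →
    ∀ 𝒟 : Finset (Set X), (∀ D ∈ 𝒟, Δ D = 1) →
    ∀ H₀ : ℕ → Set Y, (∀ k, IsThinSet (Cm p) (H₀ k)) → (∀ y, (∀ k, y ∉ H₀ k) →
      ∃ (F : Type) (_ : TopologicalSpace F) (_ : T2Space F) (_ : ChartedSpace (Cm d) F)
        (i : F → X), H511.Surf.IsFibre (Cm (p + d)) (Cm d) f y i ∧
        (∀ x, (i ⁻¹' {x}).encard ≤ m) ∧ XGaussRank (p + d) d i 𝒟 a r) →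
    ∃ H : ℕ → Set Y, (∀ k, IsThinSet (Cm p) (H k)) ∧ ∀ y, (∀ k, y ∉ H k) →
      ∀ (F : Type) [TopologicalSpace F] [ChartedSpace (Cm d) F] (i : F → X),
        H511.Surf.IsFibre (Cm (p + d)) (Cm d) f y i →
        ((r : ℕ∞) : WithBot ℕ∞) + TZ.S.kodF (p + d) p Δ (id : X → X) f ≤
            TZ.S.kodX (Cm (p + d)) Δ ∧
          (TZ.S.kodR (Cm (p + d)) (Cm d) i Δ ≤ ((r : ℕ∞) : WithBot ℕ∞) →
            TZ.S.kodR (Cm (p + d)) (Cm d) i Δ + TZ.S.kodF (p + d) p Δ (id : X → X) f ≤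
              TZ.S.kodX (Cm (p + d)) Δ ∧
            (NoExc (Cm (p + d)) (Cm p) f → H511.Surf.Q1 (Cm (p + d)) (Cm p) (Cm d) f Δ i))

/-- **T-LN**, for the `X` with `P` -/
def TLNP (P : ∀ (n : ℕ) (X : Type) [TopologicalSpace X] [ChartedSpace (Cm n) X], Prop) : Prop :=
  ∀ (p d r N : ℕ) (X Y : Type) [TopologicalSpace X] [ChartedSpace (Cm (p + d)) X]
    [TopologicalSpace Y] [ChartedSpace (Cm p) Y] (f : X → Y) (Δ : Set X → ℝ)
    (a : Fin (r + 1) → Fin N → Fin d → Set X → ℤ), 0 < d → 0 < N →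
    H511.Surf.IsFibration (Cm (p + d)) (Cm p) f Δ → P (p + d) X →
    ∀ 𝒟 : Finset (Set X), (∀ D ∈ 𝒟, Δ D ≠ 0 ∧ ∀ s, (cnt (a s) D : ℝ) ≤ N * Δ D) →
    ∀ H₀ : ℕ → Set Y, (∀ k, IsThinSet (Cm p) (H₀ k)) → (∀ y, (∀ k, y ∉ H₀ k) →
      ∃ (F : Type) (_ : TopologicalSpace F) (_ : ChartedSpace (Cm d) F) (i : F → X),
        H511.Surf.IsFibre (Cm (p + d)) (Cm d) f y i ∧ Function.Injective i ∧
        NGaussRank (p + d) N d i 𝒟 a) →
    ∃ H : ℕ → Set Y, (∀ k, IsThinSet (Cm p) (H k)) ∧ ∀ y, (∀ k, y ∉ H k) →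
      ∀ (F : Type) [TopologicalSpace F] [ChartedSpace (Cm d) F] (i : F → X),
        H511.Surf.IsFibre (Cm (p + d)) (Cm d) f y i →
        ((r : ℕ∞) : WithBot ℕ∞) + TZ.S.kodF (p + d) p Δ (id : X → X) f ≤
            TZ.S.kodX (Cm (p + d)) Δ ∧
          (TZ.S.kodR (Cm (p + d)) (Cm d) i Δ ≤ ((r : ℕ∞) : WithBot ℕ∞) →
            TZ.S.kodR (Cm (p + d)) (Cm d) i Δ + TZ.S.kodF (p + d) p Δ (id : X → X) f ≤
              TZ.S.kodX (Cm (p + d)) Δ ∧
            (NoExc (Cm (p + d)) (Cm p) f → H511.Surf.Q1 (Cm (p + d)) (Cm p) (Cm d) f Δ i))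

example : TURP (fun n X [_tX : TopologicalSpace X] [_cX : ChartedSpace (Cm n) X] =>
    ∃ w : Chart n X → Cm n → Matrix (Fin n) (Fin n) ℂ, IsKahler w) = TURStmt := rfl

example : TULP (fun n X [_tX : TopologicalSpace X] [_cX : ChartedSpace (Cm n) X] =>
    ∃ w : Chart n X → Cm n → Matrix (Fin n) (Fin n) ℂ, IsKahler w) = TULStmt := rfl

example : TLNP (fun n X [_tX : TopologicalSpace X] [_cX : ChartedSpace (Cm n) X] =>
    ∃ w : Chart n X → Cm n → Matrix (Fin n) (Fin n) ℂ, IsKahler w) = TLNStmt := rfl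

/-- **T-UR** from T-UL and T-LN, for the `X` with `P` -/
theorem turP_of {P : ∀ (n : ℕ) (X : Type) [TopologicalSpace X] [ChartedSpace (Cm n) X], Prop}
    (tul : TULP P) (tln : TLNP P) (hkap : KapStmt) : TURP P := by
  classical
  intro p d q q₁ m r N X Y _ _ _ _ f Δ a a₁ a₂ hd hf hw 𝒟 𝒟₁ h𝒟 h𝒟₁ H₀ hH₀ hsrc hrk
  have hq := hf.snc.2.2.1
  have hle1 : ∀ D, Δ D ≤ 1 := fun D => by
    obtain ⟨r, hr, -, hr1⟩ := hq D
    rw [hr]; exact_mod_cast hr1
  have hge0 : ∀ D, 0 ≤ Δ D := fun D => by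
    obtain ⟨r, hr, hr0, -⟩ := hq D
    rw [hr]; exact_mod_cast hr0
  have hpos : ∀ D ∈ 𝒟, 0 < Δ D := fun D hD => lt_of_le_of_ne (hge0 D) (Ne.symm (h𝒟 D hD).1)
  -- the large boundary
  set Δ' : Set X → ℝ := fun D => if D ∈ 𝒟 then 1 else Δ D with hΔ'
  have hs' : ∀ D, Δ' D ≠ 0 ↔ Δ D ≠ 0 := by
    intro D
    by_cases hD : D ∈ 𝒟
    · simp only [hΔ', if_pos hD]
      exact ⟨fun _ => (h𝒟 D hD).1, fun _ => one_ne_zero⟩
    · simp only [hΔ', if_neg hD]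
  have hf' : H511.Surf.IsFibration (Cm (p + d)) (Cm p) f Δ' := fib_supp hf hs' fun D => by
    by_cases hD : D ∈ 𝒟
    · exact ⟨1, by simp [hΔ', hD], zero_le_one, le_rfl⟩
    · simp only [hΔ', if_neg hD]
      exact hq D
  have h2 : ∀ D, Δ D ≤ Δ' D := by
    intro D
    by_cases hD : D ∈ 𝒟
    · simp only [hΔ', if_pos hD]; exact hle1 D
    · simp only [hΔ', if_neg hD]; exact le_rfl
  obtain ⟨H', hH', hmain'⟩ := tul p d q m r X Y f Δ' a hd hf' hw 𝒟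
    (fun D hD => by simp [hΔ', hD]) H₀ hH₀ hrk
  -- the small boundary
  obtain ⟨Δ₁, hΔ₁0, hΔ₁le, hΔ₁lt, hΔ₁h, H₁, hH₁, hmain₁⟩ : ∃ Δ₁ : Set X → ℝ,
      (∀ D, 0 ≤ Δ₁ D) ∧ (∀ D, Δ₁ D ≤ Δ D) ∧ (∀ D, Δ D < Δ' D → Δ₁ D < Δ D) ∧
      (∀ D, Δ₁ D < Δ D → f '' D = univ) ∧
      ∃ H₁ : ℕ → Set Y, (∀ k, IsThinSet (Cm p) (H₁ k)) ∧ ∀ y, (∀ k, y ∉ H₁ k) →
        ∀ (F : Type) [TopologicalSpace F] [ChartedSpace (Cm d) F] (i : F → X),
        H511.Surf.IsFibre (Cm (p + d)) (Cm d) f y i →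
        (((0 : ℕ) : ℕ∞) : WithBot ℕ∞) + TZ.S.kodF (p + d) p Δ₁ (id : X → X) f ≤
            TZ.S.kodX (Cm (p + d)) Δ₁ := by
    have hlt' : ∀ D, Δ D < Δ' D → D ∈ 𝒟 ∧ Δ D < 1 := by
      intro D hD
      by_cases hD' : D ∈ 𝒟
      · simp only [hΔ', if_pos hD'] at hD
        exact ⟨hD', hD⟩
      · simp only [hΔ', if_neg hD'] at hD
        exact absurd hD (lt_irrefl _)
    rcases hsrc with hsrc | ⟨hN, hcnt, hsrc⟩
    · set Δ₁ : Set X → ℝ := fun D => if D ∈ 𝒟 ∧ Δ D < 1 then Δ D / 2 else Δ D with hΔ₁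
      have hs₁ : ∀ D, Δ₁ D ≠ 0 ↔ Δ D ≠ 0 := by
        intro D
        by_cases hD : D ∈ 𝒟 ∧ Δ D < 1
        · simp only [hΔ₁, if_pos hD]
          have := hpos D hD.1
          exact ⟨fun _ => this.ne', fun _ => by positivity⟩
        · simp only [hΔ₁, if_neg hD]
      have hf₁ : H511.Surf.IsFibration (Cm (p + d)) (Cm p) f Δ₁ := fib_supp hf hs₁ fun D => by
        by_cases hD : D ∈ 𝒟 ∧ Δ D < 1
        · simp only [hΔ₁, if_pos hD]
          obtain ⟨r, hr, hr0, hr1⟩ := hq D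
          exact ⟨r / 2, by rw [hr]; push_cast; ring, by positivity, by linarith⟩
        · simp only [hΔ₁, if_neg hD]
          exact hq D
      obtain ⟨H₁, hH₁, hmain₁⟩ := tul p d q₁ m 0 X Y f Δ₁ a₁ hd hf₁ hw 𝒟₁ (fun D hD => by
        have h3 := h𝒟₁ D hD
        have h4 : ¬ (D ∈ 𝒟 ∧ Δ D < 1) := fun h5 => by rw [h3] at h5; exact lt_irrefl _ h5.2
        simp only [hΔ₁, if_neg h4]
        exact h3) H₀ hH₀ hsrc
      refine ⟨Δ₁, fun D => ?_, fun D => ?_, fun D hD => ?_, fun D hD => ?_, H₁, hH₁,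
        fun y hy F _ _ i hi => (hmain₁ y hy F i hi).1⟩
      · by_cases hD : D ∈ 𝒟 ∧ Δ D < 1
        · simp only [hΔ₁, if_pos hD]
          have := hge0 D
          positivity
        · simp only [hΔ₁, if_neg hD]
          exact hge0 D
      · by_cases hD : D ∈ 𝒟 ∧ Δ D < 1
        · simp only [hΔ₁, if_pos hD]
          have := hge0 D
          linarith
        · simp only [hΔ₁, if_neg hD]
          exact le_rfl
      · have h3 := hlt' D hD
        simp only [hΔ₁, if_pos h3]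
        have := hpos D h3.1
        linarith
      · by_cases hD' : D ∈ 𝒟 ∧ Δ D < 1
        · exact (h𝒟 D hD'.1).2 hD'.2
        · simp only [hΔ₁, if_neg hD'] at hD
          exact absurd hD (lt_irrefl _)
    · have hNr : (0 : ℝ) < N := by exact_mod_cast hN
      set Δ₁ : Set X → ℝ := fun D => if D ∈ 𝒟 ∧ Δ D < 1 then ((cnt (a₂ 0) D : ℝ) / N + Δ D) / 2
        else Δ D with hΔ₁
      have hb : ∀ D ∈ 𝒟, Δ D < 1 → (cnt (a₂ 0) D : ℝ) / N < Δ D := by
        intro D hD hD1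
        rw [div_lt_iff₀ hNr, mul_comm]
        exact hcnt D hD hD1
      have hb0 : ∀ D, (0 : ℝ) ≤ (cnt (a₂ 0) D : ℝ) / N := fun D =>
        div_nonneg (Nat.cast_nonneg _) hNr.le
      have hs₁ : ∀ D, Δ₁ D ≠ 0 ↔ Δ D ≠ 0 := by
        intro D
        by_cases hD : D ∈ 𝒟 ∧ Δ D < 1
        · simp only [hΔ₁, if_pos hD]
          have h3 := hpos D hD.1
          have h4 := hb0 D
          exact ⟨fun _ => h3.ne', fun _ => by positivity⟩
        · simp only [hΔ₁, if_neg hD]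
      have hf₁ : H511.Surf.IsFibration (Cm (p + d)) (Cm p) f Δ₁ := fib_supp hf hs₁ fun D => by
        by_cases hD : D ∈ 𝒟 ∧ Δ D < 1
        · simp only [hΔ₁, if_pos hD]
          obtain ⟨r, hr, hr0, hr1⟩ := hq D
          have h3 := hb D hD.1 hD.2
          refine ⟨((cnt (a₂ 0) D : ℚ) / N + r) / 2, by rw [hr]; push_cast; ring, by positivity, ?_⟩
          have h4 : (((((cnt (a₂ 0) D : ℚ) / N + r) / 2 : ℚ)) : ℝ) ≤ 1 := by
            push_cast
            rw [← hr]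
            have := hle1 D
            linarith
          exact_mod_cast h4
        · simp only [hΔ₁, if_neg hD]
          exact hq D
      have hcN : ∀ D, cnt (a₂ 0) D ≤ N := by
        intro D
        unfold cnt
        refine (Finset.card_filter_le _ _).trans ?_
        simp
      obtain ⟨H₁, hH₁, hmain₁⟩ := tln p d 0 N X Y f Δ₁ a₂ hd hN hf₁ hw 𝒟 (fun D hD => by
        refine ⟨(hs₁ D).2 (h𝒟 D hD).1, fun s => ?_⟩
        have hs0 : s = 0 := Fin.ext (by have := s.isLt; simp only [Fin.val_zero]; omega)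
        subst hs0
        by_cases hD1 : D ∈ 𝒟 ∧ Δ D < 1
        · simp only [hΔ₁, if_pos hD1]
          have h3 := hb D hD hD1.2
          have h4 : (cnt (a₂ 0) D : ℝ) = N * ((cnt (a₂ 0) D : ℝ) / N) := by
            field_simp
          rw [h4]
          exact mul_le_mul_of_nonneg_left (by rw [← h4]; linarith) hNr.le
        · simp only [hΔ₁, if_neg hD1]
          have h3 : Δ D = 1 := by
            by_contra h3
            exact hD1 ⟨hD, lt_of_le_of_ne (hle1 D) h3⟩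
          rw [h3, mul_one]
          exact_mod_cast hcN D) H₀ hH₀ hsrc
      refine ⟨Δ₁, fun D => ?_, fun D => ?_, fun D hD => ?_, fun D hD => ?_, H₁, hH₁,
        fun y hy F _ _ i hi => (hmain₁ y hy F i hi).1⟩
      · by_cases hD : D ∈ 𝒟 ∧ Δ D < 1
        · simp only [hΔ₁, if_pos hD]
          have h3 := hge0 D
          have h4 := hb0 D
          positivity
        · simp only [hΔ₁, if_neg hD]
          exact hge0 D
      · by_cases hD : D ∈ 𝒟 ∧ Δ D < 1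
        · simp only [hΔ₁, if_pos hD]
          have := hb D hD.1 hD.2
          linarith
        · simp only [hΔ₁, if_neg hD]
          exact le_rfl
      · have h3 := hlt' D hD
        simp only [hΔ₁, if_pos h3]
        have := hb D h3.1 h3.2
        linarith
      · by_cases hD' : D ∈ 𝒟 ∧ Δ D < 1
        · exact (h𝒟 D hD'.1).2 hD'.2
        · simp only [hΔ₁, if_neg hD'] at hD
          exact absurd hD (lt_irrefl _)
  -- the conclusion
  refine ⟨fun k => if k % 2 = 0 then H' (k / 2) else H₁ (k / 2), fun k => ?_, ?_⟩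
  · dsimp only
    split_ifs
    · exact hH' _
    · exact hH₁ _
  intro y hy F _ _ i hi
  have hy' : ∀ k, y ∉ H' k := by
    intro k
    have h3 := hy (2 * k)
    have h4 : 2 * k % 2 = 0 := by omega
    have h5 : 2 * k / 2 = k := by omega
    simpa only [h4, h5, if_true] using h3
  have hy₁ : ∀ k, y ∉ H₁ k := by
    intro k
    have h3 := hy (2 * k + 1)
    have h4 : ¬ (2 * k + 1) % 2 = 0 := by omega
    have h5 : (2 * k + 1) / 2 = k := by omega
    simpa only [h4, h5, if_false] using h3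
  have h3 := (hmain' y hy' F i hi).1
  have h4 := hmain₁ y hy₁ F i hi
  have h5 : ((r : ℕ∞) : WithBot ℕ∞) + TZ.S.kodF (p + d) p Δ (id : X → X) f ≤
      TZ.S.kodX (Cm (p + d)) Δ :=
    round_le hf (fun D hD => (hs' D).1 hD) hΔ₁0 hΔ₁le h2 hΔ₁lt hΔ₁h
      (c₁ := (((0 : ℕ) : ℕ∞) : WithBot ℕ∞)) WithBot.coe_ne_bot h4 h3
  refine ⟨h5, fun hk => ?_⟩
  have h6 := (add_le_add hk (le_refl (TZ.S.kodF (p + d) p Δ (id : X → X) f))).trans h5
  exact ⟨h6, fun hE => (add_le_add le_rfl (hkap (p + d) p X Y f Δ hf hE)).trans h6⟩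

end Vale.Agent.P281.H495.UL
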