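import Vale.Agent.P281.H495.UL.Kap
import Vale.Agent.P281.H495.UL.AnyP
import Vale.Agent.P281.H389.ULC.Fin
import Vale.Agent.P281.H389.LNC.Fin

/-!
# P281, T-URC (helper495): T-UR for the class C, everything plugged
-/

open Set Filter Metric Vale.Agent.P281 Vale.Agent.P281.H713
open scoped Topology ContDiff Manifold

noncomputable section

namespace Vale.Agent.P281.H495.UL

/-- **T-UR for the class C**: `TURStmt` with `ModKahler (p + d) X` in place of a Kähler metric -/
theorem turC : TURP (fun n X [_tX : TopologicalSpace X] [_cX : ChartedSpace (Vale.Agent.P272.K.Cm n) X] =>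
    H383.C.ModKahler n X) :=
  turP_of H389.ULC.tulC H389.LNC.tlnC kap

end Vale.Agent.P281.H495.UL
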