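import Vale.Agent.P281.H495.UL.Bd
import Vale.Agent.P281.ISO.Nat

/-!
P281 (helper495), project T-UL, block LE of helper511: **`LogExtStmt`**.
-/

set_option linter.all false

open Set Filter Metric
open scoped ContDiff Topology Manifold
open Vale.Agent.P281 Vale.Agent.P281.MF Vale.Agent.P281.ISO Vale.Agent.P281.H713

noncomputable section

namespace Vale.Agent.P281.H495.UL

theorem logExt : H511.UL.LogExtStmt := by
  classical
  intro d N E E' _ _ _ _ _ _ X Y _ _ _ _ _ _ f S e₀ 𝒟 Θ hd hf hS hcoord hprime hthin hoff hbound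
    x hx ζ hζ e he
  have hfz : ∀ z, HolM E E' f z := fun z => hf z
  have hfc : Continuous f := hf.continuous
  have hζ' : HolV E ζ x := hζ.1
  obtain ⟨C, W, hW, hb⟩ := hbound x hx e he
  have n1 : ∀ᶠ z in 𝓝 x, f z ∉ S := hfc.continuousAt.eventually (hS.isOpen_compl.mem_nhds hx)
  have n2 := coord_eventually e₀ hfz hζ
  have n3 : ∀ᶠ z in 𝓝 x, ∀ D ∈ 𝒟, IsLocalEq E D (e D) z :=
    (Filter.eventually_all_finset 𝒟).2 fun D hD => (he D hD).eventually
  have n4 : ∀ᶠ z in 𝓝 x, W ∈ 𝓝 z := eventually_eventually_nhds.2 hW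
  set Den : X → ℂ := fun z => ∏ D ∈ 𝒟, e D z with hDen
  set JJ : X → ℂ := fun z => JP e₀ (dM E E' f z) (dV E ζ z) with hJJ
  have hden : ∀ z, (∀ D ∈ 𝒟, IsLocalEq E D (e D) z) → (Den z ≠ 0 ↔ ∀ D ∈ 𝒟, z ∉ D) := by
    intro z hz
    rw [hDen]
    simp only [Finset.prod_ne_zero_iff]
    exact forall₂_congr fun D hD => not_congr ((hz D hD).mem_iff).symm
  obtain ⟨Q, hQ, hQe⟩ := extendM_off (E := E) (h := fun z => Θ z / JJ z ^ N * ∏ D ∈ 𝒟, e D z ^ N)
    (Den := Den) (x := x) (HolV.prod fun D hD => (he D hD).holAt)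
    (not_zero_prod (fun D hD => (he D hD).holAt) fun D hD => leq_not_zero (he D hD)) (by
      filter_upwards [n1, n2, n3, eventually_eventually_nhds.2 n2] with z a1 a2 a3 a4 h0
      obtain ⟨c, hc, hcz⟩ := hoff z a1 ((hden z a3).1 h0) ζ a2
      have h1 : HolV E (fun z => c z * ∏ D ∈ 𝒟, e D z ^ N) z :=
        hc.mul (HolV.prod fun D hD => ((a3 D hD).holAt).pow N)
      refine h1.congr ?_
      filter_upwards [hcz, a4] with w hw hw2
      have h2 : JJ w ^ N ≠ 0 := pow_ne_zero N (JP_ne_of_coord e₀ hw2)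
      show Θ w / JJ w ^ N * _ = _
      rw [hw, mul_div_assoc, div_self h2, mul_one]) (by
      filter_upwards [eventually_eventually_nhds.2 n1, eventually_eventually_nhds.2 n2,
        eventually_eventually_nhds.2 n3, eventually_eventually_nhds.2 n4] with z a1 a2 a3 a4 h0
      obtain ⟨D, hD, hzD⟩ : ∃ D ∈ 𝒟, z ∈ D := by
        by_contra hcon
        push Not at hcon
        exact ((hden z a3.self_of_nhds).2 hcon) h0
      have b1 := H969.Gen.dense_diff (E := E) (hprime D hD) (𝒟.erase D) (fun D' hD' =>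
        ⟨hprime D' (Finset.mem_of_mem_erase hD'), Finset.ne_of_mem_erase hD'⟩) hzD
      rw [mem_closure_iff_nhds] at b1 ⊢
      intro O hO
      obtain ⟨O', hO'O, hO'o, hzO'⟩ := _root_.mem_nhds_iff.1
        (inter_mem hO (inter_mem a1 (inter_mem a2 (inter_mem a3 a4))))
      obtain ⟨z', hz'O, hz'D, hz'o⟩ := b1 O' (hO'o.mem_nhds hzO')
      have hcl : IsClosed (⋃ D' ∈ 𝒟.erase D, D') :=
        (𝒟.erase D).finite_toSet.isClosed_biUnion fun D' hD' =>
          (hprime D' (Finset.mem_of_mem_erase hD')).1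
      have c1 : O' ∩ (⋃ D' ∈ 𝒟.erase D, D')ᶜ ∈ 𝓝 z' :=
        inter_mem (hO'o.mem_nhds hz'O) (hcl.isOpen_compl.mem_nhds hz'o)
      have c2 := hO'O hz'O
      obtain ⟨y, ⟨hyO, hyo⟩, hyD, htr⟩ := exists_trans (D := D) (g := e D) (z' := z') e₀ hfz c2.2.2.1
        (c2.2.2.2.1 D hD) hz'D (by
          filter_upwards [hO'o.mem_nhds hz'O] with w hw
          exact hthin D hD w (hO'O hw).2.1) c1
      have c3 := hO'O hyO
      have hoth : ∀ D' ∈ 𝒟, D' ≠ D → y ∉ D' := by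
        intro D' hD' hne hyD'
        exact hyo (Set.mem_iUnion₂.2 ⟨D', Finset.mem_erase.2 ⟨hne, hD'⟩, hyD'⟩)
      refine ⟨y, c3.1, ?_, ?_⟩
      · by_contra h1
        exact ((hden y c3.2.2.2.1).1 h1) D hD hyD
      · obtain ⟨C', hC'⟩ := bound_near e₀ hfz c3.2.2.1 c3.2.2.2.1 hD hyD hoth htr c3.2.2.2.2 hb
        refine ⟨C', ?_⟩
        filter_upwards [hC', hO'o.mem_nhds hyO] with w hw hwO hw0
        have d1 := hO'O hwO
        have d2 : JJ w ^ N ≠ 0 := pow_ne_zero N (JP_ne_of_coord e₀ d1.2.2.1)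
        have d3 := hw ((hden w d1.2.2.2.1).1 hw0)
        rw [norm_mul, norm_div, div_mul_eq_mul_div, div_le_iff₀ (norm_pos_iff.2 d2)]
        exact d3)
  refine ⟨Q, hQ, ?_⟩
  filter_upwards [hQe, n2, n3] with z h1 h2 h3 h4
  have h5 : JJ z ^ N ≠ 0 := pow_ne_zero N (JP_ne_of_coord e₀ h2)
  have h6 := h1 ((hden z h3).2 h4)
  show _ = Q z * JJ z ^ N
  rw [← h6]
  field_simp

end Vale.Agent.P281.H495.UL
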