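import Vale.Agent.P281.H716.DenseV
import Vale.Agent.P281.H76.Ord4
import Vale.Agent.P281.MF.Div

/-!
# P281, rounding of the horizontal coefficients (helper495): operations on pluricanonical sections

The first half is the text of `H716/Inst.lean` (helper716), without its heavy imports.
-/

open scoped Manifold ContDiff Topology
open Set Filter Vale.Agent.P281 Vale.Agent.P272.K
open Vale.Agent.P281.H716 Vale.Agent.P281.H716.IsSys Vale.Agent.P281.MF

set_option linter.all false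

noncomputable section

namespace Vale.Agent.P281.H495.UL

section inst

variable {n : ℕ} {X : Type} [TopologicalSpace X] [ChartedSpace (Cm n) X]
  [IsManifold 𝓘(ℂ, Cm n) ω X]

/-- the local equations -/
abbrev eqD (n : ℕ) {X : Type} [TopologicalSpace X] [ChartedSpace (Cm n) X] (D : Set X) (x : X)
    (g : X → ℂ) : Prop := IsLocalEq (Cm n) D g x

theorem isSys_eqD {T : Finset (Set X)} (hT : ∀ D ∈ T, ∀ x, ∃ g, IsLocalEq (Cm n) D g x) :
    IsSys n (eqD n) T where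
  ex D hD x := hT D hD x
  hol D x g hg := IsLocalEq.holAt (E := Cm n) (D := D) hg
  per D x g hg := IsLocalEq.eventually (E := Cm n) (D := D) hg
  unit D x g g' hg hg' := H76.unit_ratio_red (E := Cm n) (D := D) hg hg'
  nz D hD x g hg := H76.frequently_ne (E := Cm n) (D := D) hg

/-- the complement of the divisors, on `X` -/
lemma off_eqD {T : Finset (Set X)} (hT : ∀ D ∈ T, ∀ x, ∃ g, IsLocalEq (Cm n) D g x) {x : X} :
    x ∈ off (eqD n) T ↔ ∀ D ∈ T, x ∉ D := by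
  constructor
  · intro hx D hD hxD
    obtain ⟨g, hg⟩ := hT D hD x
    exact hx D hD g hg (hg.mem_iff.1 hxD)
  · intro hx D hD g hg h0
    exact hx D hD (IsLocalEq.mem_iff hg |>.2 h0)

end inst

/-! ### operations on sections -/

section ops

variable {n : ℕ} {X : Type} [TopologicalSpace X] [ChartedSpace (Cm n) X]
  [IsManifold 𝓘(ℂ, Cm n) ω X] {κ : Type} {eqn : κ → X → (X → ℂ) → Prop} {T : Finset κ}

lemma rep' (h : IsSys n eqn T) {k : κ → ℕ} (hk : ∀ D, k D ≠ 0 → D ∈ T) {m : ℕ} {s : X → ℂ}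
    (hs : J.IsSection (Cm n) eqn m k s) (x : X) : ∃ a, HolV (Cm n) a x ∧
      ∀ᶠ z in 𝓝 x, h.GG k x z ≠ 0 → s z * h.GG k x z = a z * jac (Cm n) (chartAt (Cm n) x) z ^ m := by
  obtain ⟨T', g, a, hT', hg, ha, hev⟩ := hs x
  obtain ⟨w, hw, hw0, hwe⟩ := h.prod_unit hk hT' hg (h.self_mem_dom x)
  refine ⟨fun z => a z / w z, HolV.div ha hw hw0, ?_⟩
  filter_upwards [hev, hwe, hw.continuousAt.eventually_ne hw0] with z h1 h2 h3 h4
  rw [h2] at h1
  have h5 := h1 (mul_ne_zero h3 h4)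
  rw [div_mul_eq_mul_div, eq_div_iff h3]
  have h6 : s z * (w z * h.GG k x z) = a z * jac (Cm n) (chartAt (Cm n) x) z ^ m := h5
  linear_combination h6

lemma of_rep (h : IsSys n eqn T) {k : κ → ℕ} (hk : ∀ D, k D ≠ 0 → D ∈ T) {m : ℕ}
    {s : X → ℂ} (hs : ∀ x, ∃ a, HolV (Cm n) a x ∧
      ∀ᶠ z in 𝓝 x, h.GG k x z ≠ 0 → s z * h.GG k x z = a z * jac (Cm n) (chartAt (Cm n) x) z ^ m) :
    J.IsSection (Cm n) eqn m k s := by
  intro x
  obtain ⟨a, ha, hev⟩ := hs x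
  exact ⟨T, fun D => h.gg D x, a, hk, fun D hD => h.gg_spec hD x, ha, hev⟩

lemma GG_add (h : IsSys n eqn T) (k k' : κ → ℕ) (i x : X) :
    h.GG (k + k') i x = h.GG k i x * h.GG k' i x := by
  unfold IsSys.GG
  rw [← Finset.prod_mul_distrib]
  exact Finset.prod_congr rfl fun D _ => by rw [Pi.add_apply, pow_add]

lemma supp_add {k k' : κ → ℕ} (hk : ∀ D, k D ≠ 0 → D ∈ T) (hk' : ∀ D, k' D ≠ 0 → D ∈ T) :
    ∀ D, (k + k') D ≠ 0 → D ∈ T := by
  intro D hD
  rw [Pi.add_apply] at hD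
  by_cases h0 : k D = 0
  · exact hk' D (by omega)
  · exact hk D h0

theorem sec_mul (h : IsSys n eqn T) {k k' : κ → ℕ} (hk : ∀ D, k D ≠ 0 → D ∈ T)
    (hk' : ∀ D, k' D ≠ 0 → D ∈ T) {m m' : ℕ} {s s' : X → ℂ}
    (hs : J.IsSection (Cm n) eqn m k s) (hs' : J.IsSection (Cm n) eqn m' k' s') :
    J.IsSection (Cm n) eqn (m + m') (k + k') (fun z => s z * s' z) := by
  refine of_rep h (supp_add hk hk') fun x => ?_
  obtain ⟨a, ha, hev⟩ := rep' h hk hs x
  obtain ⟨a', ha', hev'⟩ := rep' h hk' hs' x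
  refine ⟨fun z => a z * a' z, ha.mul ha', ?_⟩
  filter_upwards [hev, hev'] with z h1 h2 h3
  rw [GG_add] at h3 ⊢
  have h4 := h1 (left_ne_zero_of_mul h3)
  have h5 := h2 (right_ne_zero_of_mul h3)
  rw [pow_add]
  linear_combination (s' z * h.GG k' x z) * h4 +
    a z * jac (Cm n) (chartAt (Cm n) x) z ^ m * h5

theorem sec_one (h : IsSys n eqn T) : J.IsSection (Cm n) eqn 0 0 (fun _ => 1) := by
  refine of_rep h (fun D hD => absurd rfl hD) fun x => ⟨fun _ => 1, HolV.const 1 x, ?_⟩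
  refine Eventually.of_forall fun z _ => ?_
  have h1 : h.GG (fun _ => 0) x z = 1 := Finset.prod_eq_one fun D _ => pow_zero _
  show 1 * h.GG (fun _ => 0) x z = 1 * jac (Cm n) (chartAt (Cm n) x) z ^ 0
  rw [h1, pow_zero]

theorem sec_pow (h : IsSys n eqn T) {k : κ → ℕ} (hk : ∀ D, k D ≠ 0 → D ∈ T) {m : ℕ}
    {s : X → ℂ} (hs : J.IsSection (Cm n) eqn m k s) (N : ℕ) :
    J.IsSection (Cm n) eqn (N * m) (N • k) (fun z => s z ^ N) := by
  induction N with
  | zero =>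
    have := sec_one h
    simpa using this
  | succ N ih =>
    have hN : ∀ D, (N • k) D ≠ 0 → D ∈ T := by
      intro D hD
      refine hk D fun h0 => hD ?_
      rw [Pi.smul_apply, h0, smul_zero]
    have h1 := sec_mul h hN hk ih hs
    have e1 : (N + 1) * m = N * m + m := by ring
    have e2 : (N + 1) • k = N • k + k := by rw [add_smul, one_smul]
    rw [e1, e2]
    simpa only [pow_succ] using h1

theorem sec_mono (h : IsSys n eqn T) {k k' : κ → ℕ} (hk : ∀ D, k D ≤ k' D)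
    (hk' : ∀ D, k' D ≠ 0 → D ∈ T) {m : ℕ} {s : X → ℂ} (hs : J.IsSection (Cm n) eqn m k s) :
    J.IsSection (Cm n) eqn m k' s := by
  have hkT : ∀ D, k D ≠ 0 → D ∈ T := fun D hD => hk' D (by have := hk D; omega)
  have e1 : k' = k + fun D => k' D - k D := by
    funext D
    have := hk D
    rw [Pi.add_apply]
    omega
  have e2 : ∀ i x, h.GG k' i x = h.GG k i x * h.GG (fun D => k' D - k D) i x := by
    intro i x
    rw [← GG_add, ← e1]
  refine of_rep h hk' fun x => ?_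
  obtain ⟨a, ha, hev⟩ := rep' h hkT hs x
  refine ⟨fun z => a z * h.GG (fun D => k' D - k D) x z, ha.mul
    (h.holV_GG (h.self_mem_dom x) _), ?_⟩
  filter_upwards [hev] with z h1 h2
  rw [e2] at h2 ⊢
  have h3 := h1 (left_ne_zero_of_mul h2)
  linear_combination h.GG (fun D => k' D - k D) x z * h3

end ops

/-! ### rounding -/

section round

variable {n : ℕ} {X : Type} [TopologicalSpace X] [ChartedSpace (Cm n) X]
  [IsManifold 𝓘(ℂ, Cm n) ω X]

/-- a section which is nonzero somewhere off its poles is nonzero on a dense open set -/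
theorem dense_ne [PreconnectedSpace X] {T : Finset (Set X)}
    (hT : ∀ D ∈ T, ∀ x, ∃ g, IsLocalEq (Cm n) D g x) {k : Set X → ℕ} (hk : ∀ D, k D ≠ 0 → D ∈ T)
    {m : ℕ} {s : X → ℂ} (hs : J.IsSection (Cm n) (eqD n) m k s) {z : X}
    (hz : ∀ D, k D ≠ 0 → ∃ g, IsLocalEq (Cm n) D g z ∧ g z ≠ 0) (hs0 : s z ≠ 0) :
    Dense {x | x ∈ off (eqD n) T ∧ s x ≠ 0} ∧ IsOpen {x | x ∈ off (eqD n) T ∧ s x ≠ 0} := by
  classical
  have h := isSys_eqD hT
  have hli : ∀ x, LinearIndependent ℂ fun b : Fin 0 =>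
      dV (Cm n) (fun w => (fun _ : Fin 1 => s) b.succ w / (fun _ : Fin 1 => s) 0 w) x := fun x =>
    linearIndependent_empty_type
  have hset : {x | x ∈ off (eqD n) T ∧ Ind n (fun _ : Fin 1 => s) x} =
      {x | x ∈ off (eqD n) T ∧ s x ≠ 0} := by
    ext x
    exact ⟨fun h1 => ⟨h1.1, h1.2.1⟩, fun h1 => ⟨h1.1, h1.2, hli x⟩⟩
  rw [← hset]
  refine h.dense_ind hk (fun _ => hs) ?_
  -- a point
  obtain ⟨T', g, a, hT', hg, ha, hev⟩ := hs z
  have hgz : ∏ D ∈ T', g D z ^ k D ≠ 0 := by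
    refine Finset.prod_ne_zero_iff.2 fun D hD => ?_
    by_cases h0 : k D = 0
    · rw [h0, pow_zero]; exact one_ne_zero
    · obtain ⟨g', hg', hg0⟩ := hz D h0
      refine pow_ne_zero _ fun h1 => hg0 ?_
      exact (IsLocalEq.mem_iff hg').1 ((IsLocalEq.mem_iff (hg D hD)).2 h1)
  have haz : a z ≠ 0 := by
    intro h0
    have h1 := hev.self_of_nhds hgz
    rw [h0, zero_mul] at h1
    exact mul_ne_zero hs0 hgz h1
  have hcg : ContinuousAt (fun z => ∏ D ∈ T', g D z ^ k D) z :=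
    (HolV.prod (E := Cm n) fun D hD => HolV.pow (IsLocalEq.holAt (hg D hD)) _ :
      HolV (Cm n) (fun z => ∏ D ∈ T', g D z ^ k D) z).continuousAt
  have hac : ContinuousAt a z := (show HolV (Cm n) a z from ha).continuousAt
  obtain ⟨x, hx, h1, h2, h3, h4⟩ := ((h.freq_off z).and_eventually (hev.and
    ((hcg.eventually_ne hgz).and ((hac.eventually_ne haz).and
      ((chartAt (Cm n) z).open_source.mem_nhds (mem_chart_source _ z)))))).exists
  refine ⟨x, hx, ?_, hli x⟩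
  intro h0
  have h5 := h1 h2
  have h0 : s x = 0 := h0
  rw [h0, zero_mul] at h5
  have h6 : jac (Cm n) (chartAt (Cm n) z) x ≠ 0 := jac_chart_ne_zero h4
  exact mul_ne_zero h3 (pow_ne_zero m h6) h5.symm

theorem exists_den (T : Finset (Set X)) {Δ : Set X → ℝ}
    (hq : ∀ D, ∃ q : ℚ, Δ D = q ∧ 0 ≤ q) :
    ∃ q : ℕ, 0 < q ∧ ∀ D ∈ T, ∃ c : ℕ, (c : ℝ) = q * Δ D := by
  classical
  induction T using Finset.induction_on with
  | empty => exact ⟨1, one_pos, fun D hD => absurd hD (Finset.notMem_empty D)⟩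
  | insert D₀ T _ ih =>
    obtain ⟨q, hq0, hqT⟩ := ih
    obtain ⟨r, hr, hr0⟩ := hq D₀
    refine ⟨q * r.den, Nat.mul_pos hq0 r.pos, fun D hD => ?_⟩
    rcases Finset.mem_insert.1 hD with rfl | hD
    · refine ⟨q * r.num.toNat, ?_⟩
      have h1 : ((r.num.toNat : ℤ) : ℝ) = (r.num : ℝ) := by
        rw [Int.toNat_of_nonneg (Rat.num_nonneg.2 hr0)]
      have h2 : (r : ℝ) * r.den = r.num := by exact_mod_cast Rat.mul_den_eq_num r
      have h3 : ((r.num.toNat : ℕ) : ℝ) = (r : ℝ) * r.den := by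
        rw [h2, ← h1]
        norm_cast
      rw [hr]
      push_cast
      rw [h3]
      ring
    · obtain ⟨c, hc⟩ := hqT D hD
      refine ⟨c * r.den, ?_⟩
      push_cast
      rw [hc]
      ring

theorem exists_large (T : Finset (Set X)) {A B : Set X → ℝ} (h : ∀ D ∈ T, A D ≤ 0 ∨ 0 < B D)
    (hB : ∀ D ∈ T, 0 ≤ B D) : ∃ N : ℕ, ∀ D ∈ T, A D ≤ N * B D := by
  classical
  induction T using Finset.induction_on with
  | empty => exact ⟨0, fun D hD => absurd hD (Finset.notMem_empty D)⟩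
  | insert D₀ T _ ih =>
    obtain ⟨N, hN⟩ := ih (fun D hD => h D (Finset.mem_insert_of_mem hD))
      fun D hD => hB D (Finset.mem_insert_of_mem hD)
    obtain ⟨N', hN'⟩ : ∃ N' : ℕ, A D₀ ≤ N' * B D₀ := by
      rcases h D₀ (Finset.mem_insert_self _ _) with h1 | h1
      · exact ⟨0, by simpa using h1⟩
      · obtain ⟨N', hN'⟩ := exists_nat_ge (A D₀ / B D₀)
        exact ⟨N', by rwa [div_le_iff₀ h1] at hN'⟩
    refine ⟨max N N', fun D hD => ?_⟩
    rcases Finset.mem_insert.1 hD with rfl | hD'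
    · refine hN'.trans (mul_le_mul_of_nonneg_right ?_ (hB _ hD))
      exact_mod_cast le_max_right _ _
    · refine (hN D hD').trans (mul_le_mul_of_nonneg_right ?_ (hB _ hD))
      exact_mod_cast le_max_left _ _

/-- **rounding**: if `κ(K_X + Δ₁) ≥ 0` and `Δ₁ < Δ` where `Δ < Δ'`, then
`κ(K_X + Δ') ≤ κ(K_X + Δ)` -/
theorem kod_round [PreconnectedSpace X] {Δ₁ Δ Δ' : Set X → ℝ} (hfin : {D | Δ' D ≠ 0}.Finite)
    (hpr : ∀ D, Δ' D ≠ 0 → J.IsPrime (Cm n) D) (h0 : ∀ D, 0 ≤ Δ₁ D)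
    (hq : ∀ D, ∃ q : ℚ, Δ D = q) (h1 : ∀ D, Δ₁ D ≤ Δ D) (h2 : ∀ D, Δ D ≤ Δ' D)
    (hlt : ∀ D, Δ D < Δ' D → Δ₁ D < Δ D)
    (hne : J.kod (Cm n) (fun (D : Set X) x g => J.IsLocalEq (Cm n) D g x) Δ₁ ≠ ⊥) :
    J.kod (Cm n) (fun (D : Set X) x g => J.IsLocalEq (Cm n) D g x) Δ' ≤
      J.kod (Cm n) (fun (D : Set X) x g => J.IsLocalEq (Cm n) D g x) Δ := by
  classical
  rw [JB.kod_eq] at hne ⊢
  rw [JB.kod_eq]
  obtain ⟨j₀, m₀, k₀, s, z₀, hm₀, hk₀, hs, hgz₀, hs0, -⟩ :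
      ∃ j, KodGE (Cm n) (fun (D : Set X) x g => J.IsLocalEq (Cm n) D g x) Δ₁ j := by
    by_contra hcon
    push Not at hcon
    apply hne
    unfold kod
    rw [iSup₂_eq_bot]
    exact fun j hj => absurd hj (hcon j)
  unfold kod
  refine iSup₂_le fun j hj => ?_
  obtain ⟨m, k, t, z, hm, hk, ht, hgz, ht0, hli⟩ := hj
  set T : Finset (Set X) := hfin.toFinset with hTd
  have hTpr : ∀ D ∈ T, J.IsPrime (Cm n) D := fun D hD => hpr D (hfin.mem_toFinset.1 hD)
  have hT : ∀ D ∈ T, ∀ x, ∃ g, IsLocalEq (Cm n) D g x := fun D hD => (hTpr D hD).2.1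
  have h := isSys_eqD hT
  have hΔ0 : ∀ D, 0 ≤ Δ D := fun D => (h0 D).trans (h1 D)
  have hTn : ∀ D, D ∉ T → Δ' D = 0 ∧ Δ D = 0 ∧ Δ₁ D = 0 := by
    intro D hD
    have a1 : Δ' D = 0 := by
      by_contra a1
      exact hD (hfin.mem_toFinset.2 a1)
    have a2 : Δ D = 0 := le_antisymm (a1 ▸ h2 D) (hΔ0 D)
    exact ⟨a1, a2, le_antisymm (a2 ▸ h1 D) (h0 D)⟩
  have hkT : ∀ D, k D ≠ 0 → D ∈ T := by
    intro D hD
    by_contra a1
    apply hD
    have a2 := hk D
    rw [(hTn D a1).1, mul_zero] at a2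
    exact_mod_cast a2
  have hk₀T : ∀ D, k₀ D ≠ 0 → D ∈ T := by
    intro D hD
    by_contra a1
    apply hD
    have a2 := hk₀ D
    rw [(hTn D a1).2.2, mul_zero] at a2
    exact_mod_cast a2
  -- the exponents
  obtain ⟨q, hq0, hqT⟩ := exists_den T (Δ := Δ) fun D => by
    obtain ⟨r, hr⟩ := hq D
    exact ⟨r, hr, by have := hΔ0 D; rw [hr] at this; exact_mod_cast this⟩
  have hc : ∀ D, ∃ c : ℕ, (c : ℝ) = q * Δ D := by
    intro D
    by_cases hD : D ∈ T
    · exact hqT D hD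
    · exact ⟨0, by rw [(hTn D hD).2.1]; simp⟩
  choose c hc using hc
  obtain ⟨N, hN⟩ := exists_large T (A := fun D => m * (Δ' D - Δ D))
    (B := fun D => m₀ * (Δ D - Δ₁ D)) (fun D _ => by
      rcases (h2 D).eq_or_lt with a1 | a1
      · left
        show (m : ℝ) * (Δ' D - Δ D) ≤ 0
        rw [a1, sub_self, mul_zero]
      · right
        have a2 := hlt D a1
        have a3 : (0 : ℝ) < m₀ := by exact_mod_cast hm₀
        exact mul_pos a3 (sub_pos.2 a2)) fun D _ =>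
      mul_nonneg (Nat.cast_nonneg _) (sub_nonneg.2 (h1 D))
  set K' : Set X → ℕ := fun D => (N * m₀ + m) * c D with hK'
  have hK'e : ∀ D, (K' D : ℝ) = ((q * (N * m₀ + m) : ℕ) : ℝ) * Δ D := by
    intro D
    show (((N * m₀ + m) * c D : ℕ) : ℝ) = _
    push_cast
    rw [hc D]
    ring
  have hK'T : ∀ D, K' D ≠ 0 → D ∈ T := by
    intro D hD
    by_contra a1
    apply hD
    have a2 := hK'e D
    rw [(hTn D a1).2.1, mul_zero] at a2
    exact_mod_cast a2
  have hle : ∀ D, ((q * N) • k₀ + ((q - 1) • k + k)) D ≤ K' D := by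
    intro D
    have e0 : ((q * N) • k₀ + ((q - 1) • k + k)) D = q * N * k₀ D + q * k D := by
      simp only [Pi.add_apply, Pi.smul_apply, smul_eq_mul]
      obtain ⟨q', rfl⟩ : ∃ q', q = q' + 1 := ⟨q - 1, by omega⟩
      rw [Nat.add_sub_cancel]
      ring
    rw [e0]
    have a1 : ((q * N * k₀ D + q * k D : ℕ) : ℝ) ≤ (K' D : ℝ) := by
      rw [hK'e D]
      push_cast
      rw [hk D, hk₀ D]
      have a2 : (m : ℝ) * (Δ' D - Δ D) ≤ N * (m₀ * (Δ D - Δ₁ D)) := by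
        by_cases hD : D ∈ T
        · exact hN D hD
        · rw [(hTn D hD).1, (hTn D hD).2.1, (hTn D hD).2.2]
          simp
      have a3 : (0 : ℝ) ≤ q := Nat.cast_nonneg q
      nlinarith [mul_le_mul_of_nonneg_left a2 a3]
    exact_mod_cast a1
  -- the sections
  set u : Fin (j + 1) → X → ℂ := fun b x => s 0 x ^ (q * N) * (t 0 x ^ (q - 1) * t b x) with hu
  have hsu : ∀ b, J.IsSection (Cm n) (eqD n) (q * (N * m₀ + m)) K' (u b) := by
    intro b
    have a1 : J.IsSection (Cm n) (eqD n) m₀ k₀ (s 0) := hs 0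
    have a2 : J.IsSection (Cm n) (eqD n) m k (t 0) := ht 0
    have a3 : J.IsSection (Cm n) (eqD n) m k (t b) := ht b
    have b1 := sec_pow h hk₀T a1 (q * N)
    have b2 := sec_pow h hkT a2 (q - 1)
    have s1 : ∀ D, ((q * N) • k₀) D ≠ 0 → D ∈ T := fun D hD => hk₀T D fun a => hD (by
      rw [Pi.smul_apply, a, smul_zero])
    have s2 : ∀ D, ((q - 1) • k) D ≠ 0 → D ∈ T := fun D hD => hkT D fun a => hD (by
      rw [Pi.smul_apply, a, smul_zero])
    have b3 := sec_mul h s2 hkT b2 a3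
    have b4 := sec_mul h s1 (supp_add s2 hkT) b1 b3
    have b5 := sec_mono h hle hK'T b4
    have e1 : q * N * m₀ + ((q - 1) * m + m) = q * (N * m₀ + m) := by
      obtain ⟨q', rfl⟩ : ∃ q', q = q' + 1 := ⟨q - 1, by omega⟩
      rw [Nat.add_sub_cancel]
      ring
    rw [e1] at b5
    exact b5
  -- the point
  have hzT : z ∈ off (eqD n) T := by
    rw [off_eqD hT]
    intro D hD hzD
    have a1 : k D ≠ 0 := by
      intro a1
      have a2 := hk D
      rw [a1, Nat.cast_zero] at a2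
      have a3 : (m : ℝ) ≠ 0 := by exact_mod_cast hm.ne'
      exact hfin.mem_toFinset.1 hD ((mul_eq_zero.1 a2.symm).resolve_left a3)
    obtain ⟨g, hg, hg0⟩ := hgz D a1
    exact hg0 ((IsLocalEq.mem_iff hg).1 hzD)
  have hind := h.dense_ind hkT (s := t) ht ⟨z, hzT, ht0, hli⟩
  have hsne := dense_ne hT hk₀T (s := s 0) (hs 0) hgz₀ hs0
  obtain ⟨z', ⟨-, hz'i⟩, hz'T, hz's⟩ := hsne.1.inter_open_nonempty _ hind.2 ⟨z, hzT, ht0, hli⟩
  have hz's : s 0 z' ≠ 0 := hz's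
  refine le_iSup₂_of_le j ⟨q * (N * m₀ + m), K', u, z', ?_, hK'e, hsu, ?_, ?_, ?_⟩ le_rfl
  · exact Nat.mul_pos hq0 (by positivity)
  · intro D hD
    obtain ⟨g, hg⟩ := hT D (hK'T D hD) z'
    exact ⟨g, hg, fun a1 => (off_eqD hT).1 hz'T D (hK'T D hD) ((IsLocalEq.mem_iff hg).2 a1)⟩
  · exact mul_ne_zero (pow_ne_zero _ hz's) (mul_ne_zero (pow_ne_zero _ hz'i.1) hz'i.1)
  · have a1 : (fun b : Fin j => dif (Cm n) (fun w => u b.succ w / u 0 w) z') =
        fun b : Fin j => dV (Cm n) (fun w => t b.succ w / t 0 w) z' := by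
      funext b
      have a2 : (fun w => u b.succ w / u 0 w) =ᶠ[𝓝 z'] fun w => t b.succ w / t 0 w := by
        filter_upwards [hsne.2.mem_nhds ⟨hz'T, hz's⟩, hind.2.mem_nhds ⟨hz'T, hz'i⟩]
          with w hw hw'
        have b1 : s 0 w ^ (q * N) ≠ 0 := pow_ne_zero _ hw.2
        have b2 : t 0 w ^ (q - 1) ≠ 0 := pow_ne_zero _ hw'.2.1
        show s 0 w ^ (q * N) * (t 0 w ^ (q - 1) * t b.succ w) /
          (s 0 w ^ (q * N) * (t 0 w ^ (q - 1) * t 0 w)) = _
        rw [mul_div_mul_left _ _ b1, mul_div_mul_left _ _ b2]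
      show dif (Cm n) (fun w => u b.succ w / u 0 w) z' = dif (Cm n) (fun w => t b.succ w / t 0 w) z'
      unfold dif
      rw [a2.mfderiv_eq]
    rw [a1]
    exact hz'i.2

end round

end Vale.Agent.P281.H495.UL
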