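import Vale.Agent.P281.H495.UL.Vert
import Vale.Agent.P281.H495.UL.Ops
import Vale.Agent.P281.H511.UL.Spec
import Vale.Agent.P281.H969.TLN.Spec

/-!
# P281, T-UR (helper495): mixed Gauss maps and arbitrary horizontal coefficients

The forms may have full poles along divisors `D` of any positive coefficient `Δ D`, as soon as one
nonzero form has small poles: `Δ' = ⌈Δ⌉` on `𝒟`, `Δ₁ < Δ` for the small poles;
`kodF f Δ = kodF f Δ'` (the pull-backs of the forms of `Y` have no poles along horizontal divisors),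
`κ(X, K + Δ') = κ(X, K + Δ)` if `κ(X, K + Δ₁) ≥ 0`.
-/

open Set Filter Metric MeasureTheory Vale.Agent.P281 Vale.Agent.P281.H713
open Vale.Agent.P272.K (Chart IsKahler IsHermitian Cm)
open Vale.Agent.P281.MF Vale.Agent.P281.ISO Vale.Agent.P281.H713.TZ
open Vale.Agent.P281.H64.Thin (IsThinSet)
open Vale.Agent.P281.H64.Gen (IsSmallSet NoExc ExcOne)

open scoped Topology ContDiff Manifold

set_option linter.all false

noncomputable section

namespace Vale.Agent.P281.H495.UL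

open Vale.Agent.P281.H511.UL (XGaussRank TULStmt)
open Vale.Agent.P281.H969.TLN (NGaussRank TLNStmt cnt)

/-- `κ(f | Δ) ≤ kodF f Δ` for a neat fibration `f` -/
def KapStmt : Prop :=
  ∀ (n p : ℕ) (X Y : Type) [tX : TopologicalSpace X] [cX : ChartedSpace (Cm n) X]
    [tY : TopologicalSpace Y] [cY : ChartedSpace (Cm p) Y] (f : X → Y) (Δ : Set X → ℝ),
    H511.Surf.IsFibration (Cm n) (Cm p) f Δ → NoExc (Cm n) (Cm p) f →
    TZ.S.kap (Cm n) (Cm p) ⟨X, Y, tX, tY, cX, cY, f, Δ⟩ ≤ TZ.S.kodF n p Δ (id : X → X) f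

/-- **T-UR**: `𝒟` a finite set of divisors in the support of `Δ`, those of coefficient `< 1` mapped
onto `Y`; the mixed Gauss map (full poles along `𝒟`) of the very general fibres has rank at least `r`;
and they have one nonzero product of `d` mixed forms with poles only along the `D ∈ 𝒟` with
`Δ D = 1`, or one nonzero `N`-fold product of forms `dlog u_1 ∧ ⋯ ∧ dlog u_d` in less than `N Δ D`
factors of which `D` occurs, for all `D ∈ 𝒟` with `Δ D < 1`. -/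
def TURStmt : Prop :=
  ∀ (p d q q₁ m r N : ℕ) (X Y : Type) [TopologicalSpace X] [ChartedSpace (Cm (p + d)) X]
    [TopologicalSpace Y] [ChartedSpace (Cm p) Y] (f : X → Y) (Δ : Set X → ℝ)
    (a : Fin q → Set X → ℤ) (a₁ : Fin q₁ → Set X → ℤ) (a₂ : Fin 1 → Fin N → Fin d → Set X → ℤ),
    0 < d → H511.Surf.IsFibration (Cm (p + d)) (Cm p) f Δ →
    (∃ w : Chart (p + d) X → Cm (p + d) → Matrix (Fin (p + d)) (Fin (p + d)) ℂ, IsKahler w) →
    ∀ 𝒟 𝒟₁ : Finset (Set X), (∀ D ∈ 𝒟, Δ D ≠ 0 ∧ (Δ D < 1 → f '' D = univ)) →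
    (∀ D ∈ 𝒟₁, Δ D = 1) →
    ∀ H₀ : ℕ → Set Y, (∀ k, IsThinSet (Cm p) (H₀ k)) →
    ((∀ y, (∀ k, y ∉ H₀ k) → ∃ (F : Type) (_ : TopologicalSpace F) (_ : T2Space F)
        (_ : ChartedSpace (Cm d) F) (i : F → X), H511.Surf.IsFibre (Cm (p + d)) (Cm d) f y i ∧
        (∀ x, (i ⁻¹' {x}).encard ≤ m) ∧ XGaussRank (p + d) d i 𝒟₁ a₁ 0) ∨
      0 < N ∧ (∀ D ∈ 𝒟, Δ D < 1 → (cnt (a₂ 0) D : ℝ) < N * Δ D) ∧
      ∀ y, (∀ k, y ∉ H₀ k) → ∃ (F : Type) (_ : TopologicalSpace F) (_ : ChartedSpace (Cm d) F)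
        (i : F → X), H511.Surf.IsFibre (Cm (p + d)) (Cm d) f y i ∧ Function.Injective i ∧
        NGaussRank (p + d) N d i 𝒟 a₂) →
    (∀ y, (∀ k, y ∉ H₀ k) → ∃ (F : Type) (_ : TopologicalSpace F) (_ : T2Space F)
        (_ : ChartedSpace (Cm d) F) (i : F → X), H511.Surf.IsFibre (Cm (p + d)) (Cm d) f y i ∧
        (∀ x, (i ⁻¹' {x}).encard ≤ m) ∧ XGaussRank (p + d) d i 𝒟 a r) →
    ∃ H : ℕ → Set Y, (∀ k, IsThinSet (Cm p) (H k)) ∧ ∀ y, (∀ k, y ∉ H k) →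
      ∀ (F : Type) [TopologicalSpace F] [ChartedSpace (Cm d) F] (i : F → X),
        H511.Surf.IsFibre (Cm (p + d)) (Cm d) f y i →
        ((r : ℕ∞) : WithBot ℕ∞) + TZ.S.kodF (p + d) p Δ (id : X → X) f ≤
            TZ.S.kodX (Cm (p + d)) Δ ∧
          (TZ.S.kodR (Cm (p + d)) (Cm d) i Δ ≤ ((r : ℕ∞) : WithBot ℕ∞) →
            TZ.S.kodR (Cm (p + d)) (Cm d) i Δ + TZ.S.kodF (p + d) p Δ (id : X → X) f ≤
              TZ.S.kodX (Cm (p + d)) Δ ∧
            (NoExc (Cm (p + d)) (Cm p) f → H511.Surf.Q1 (Cm (p + d)) (Cm p) (Cm d) f Δ i))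

/-! ### boundaries with the same support -/

theorem snc_supp {E : Type} [NormedAddCommGroup E] [NormedSpace ℂ E] {X : Type}
    [TopologicalSpace X] [ChartedSpace E X] {Δ Δ₁ : Set X → ℝ} (h : J.IsSNC E Δ)
    (hs : ∀ D, Δ₁ D ≠ 0 ↔ Δ D ≠ 0) (hq : ∀ D, ∃ q : ℚ, Δ₁ D = q ∧ 0 ≤ q ∧ q ≤ 1) :
    J.IsSNC E Δ₁ := by
  refine ⟨h.1.subset fun D hD => (hs D).1 hD, fun D hD => h.2.1 D ((hs D).1 hD), hq, ?_⟩
  intro x g hg c
  obtain ⟨ξ, hξ⟩ := h.2.2.2 x g (fun D hD hx => hg D ((hs D).2 hD) hx)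
    fun D => c ⟨D.1, (hs D.1).2 D.2.1, D.2.2⟩
  refine ⟨ξ, funext fun D => ?_⟩
  exact congrFun hξ ⟨D.1, (hs D.1).1 D.2.1, D.2.2⟩

theorem fib_supp {E E' : Type} [NormedAddCommGroup E] [NormedSpace ℂ E]
    [NormedAddCommGroup E'] [NormedSpace ℂ E'] {X Y : Type}
    [TopologicalSpace X] [ChartedSpace E X] [TopologicalSpace Y] [ChartedSpace E' Y]
    {f : X → Y} {Δ Δ₁ : Set X → ℝ} (h : H511.Surf.IsFibration E E' f Δ)
    (hs : ∀ D, Δ₁ D ≠ 0 ↔ Δ D ≠ 0) (hq : ∀ D, ∃ q : ℚ, Δ₁ D = q ∧ 0 ≤ q ∧ q ≤ 1) :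
    H511.Surf.IsFibration E E' f Δ₁ :=
  ⟨h.hausdorff, h.compact, h.connected, h.manifold, h.hol, h.fibres, snc_supp h.snc hs hq⟩

theorem kodF_mono {n p : ℕ} {X Y : Type} [TopologicalSpace X] [ChartedSpace (Cm n) X]
    [TopologicalSpace Y] [ChartedSpace (Cm p) Y] {f : X → Y} {Δ Δ' : Set X → ℝ}
    (h : ∀ D, Δ D ≤ Δ' D) :
    TZ.S.kodF n p Δ (id : X → X) f ≤ TZ.S.kodF n p Δ' (id : X → X) f := by
  refine iSup₂_le fun l hl => ?_
  obtain ⟨m, K, 𝒢, σ, y, hm, hK, hrest⟩ := hl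
  exact le_iSup₂_of_le l ⟨m, K, 𝒢, σ, y, hm, fun D => (hK D).trans
    (mul_le_mul_of_nonneg_left (h D) (Nat.cast_nonneg m)), hrest⟩ le_rfl

/-- **rounding of horizontal coefficients** -/
theorem round_le {n p : ℕ} {X Y : Type} [TopologicalSpace X] [ChartedSpace (Cm n) X]
    [TopologicalSpace Y] [ChartedSpace (Cm p) Y] {f : X → Y} {Δ Δ₁ Δ' : Set X → ℝ}
    (hf : H511.Surf.IsFibration (Cm n) (Cm p) f Δ)
    (hs : ∀ D, Δ' D ≠ 0 → Δ D ≠ 0)
    (h0 : ∀ D, 0 ≤ Δ₁ D) (h1 : ∀ D, Δ₁ D ≤ Δ D) (h2 : ∀ D, Δ D ≤ Δ' D)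
    (hlt : ∀ D, Δ D < Δ' D → Δ₁ D < Δ D) (hh : ∀ D, Δ₁ D < Δ D → f '' D = univ)
    {c₁ : WithBot ℕ∞} (hc₁ : c₁ ≠ ⊥) (hΔ₁ : c₁ + TZ.S.kodF n p Δ₁ (id : X → X) f ≤
      TZ.S.kodX (Cm n) Δ₁) {c : WithBot ℕ∞}
    (hΔ' : c + TZ.S.kodF n p Δ' (id : X → X) f ≤ TZ.S.kodX (Cm n) Δ') :
    c + TZ.S.kodF n p Δ (id : X → X) f ≤ TZ.S.kodX (Cm n) Δ := by
  have : T2Space X := hf.hausdorff.1
  have : CompactSpace X := hf.compact
  have : ConnectedSpace X := hf.connected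
  have : IsManifold 𝓘(ℂ, Cm n) ω X := hf.manifold.1
  have : IsManifold 𝓘(ℂ, Cm p) ω Y := hf.manifold.2
  by_cases hbot : TZ.S.kodF n p Δ (id : X → X) f = ⊥
  · rw [hbot, WithBot.add_bot]
    exact bot_le
  have hv := kodF_vert hf.hol (Δ := Δ) (Δ₀ := Δ₁) h0 fun D hD =>
    ⟨hf.snc.2.1 D (fun h3 => by have := h0 D; linarith), hh D hD⟩
  have hne₁ : TZ.S.kodF n p Δ₁ (id : X → X) f ≠ ⊥ := by
    intro h3
    rw [h3, le_bot_iff] at hv
    exact hbot hv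
  have hne : TZ.S.kodX (Cm n) Δ₁ ≠ ⊥ := by
    intro h3
    rw [h3, le_bot_iff, WithBot.add_eq_bot] at hΔ₁
    exact hΔ₁.elim hc₁ hne₁
  have hk := kod_round (n := n) (Δ₁ := Δ₁) (Δ := Δ) (Δ' := Δ')
    (hf.snc.1.subset fun D hD => hs D hD) (fun D hD => hf.snc.2.1 D (hs D hD)) h0
    (fun D => by obtain ⟨q, hq, -⟩ := hf.snc.2.2.1 D; exact ⟨q, hq⟩) h1 h2 hlt hne
  exact ((add_le_add le_rfl (kodF_mono h2)).trans hΔ').trans hk

/-- **T-UR** from T-UL and T-LN -/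
theorem tur_of (tul : TULStmt) (tln : TLNStmt) (hkap : KapStmt) : TURStmt := by
  classical
  intro p d q q₁ m r N X Y _ _ _ _ f Δ a a₁ a₂ hd hf hw 𝒟 𝒟₁ h𝒟 h𝒟₁ H₀ hH₀ hsrc hrk
  have hq := hf.snc.2.2.1
  have hle1 : ∀ D, Δ D ≤ 1 := fun D => by
    obtain ⟨r, hr, -, hr1⟩ := hq D
    rw [hr]; exact_mod_cast hr1
  have hge0 : ∀ D, 0 ≤ Δ D := fun D => by
    obtain ⟨r, hr, hr0, -⟩ := hq D
    rw [hr]; exact_mod_cast hr0
  have hpos : ∀ D ∈ 𝒟, 0 < Δ D := fun D hD => lt_of_le_of_ne (hge0 D) (Ne.symm (h𝒟 D hD).1)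
  -- the large boundary
  set Δ' : Set X → ℝ := fun D => if D ∈ 𝒟 then 1 else Δ D with hΔ'
  have hs' : ∀ D, Δ' D ≠ 0 ↔ Δ D ≠ 0 := by
    intro D
    by_cases hD : D ∈ 𝒟
    · simp only [hΔ', if_pos hD]
      exact ⟨fun _ => (h𝒟 D hD).1, fun _ => one_ne_zero⟩
    · simp only [hΔ', if_neg hD]
  have hf' : H511.Surf.IsFibration (Cm (p + d)) (Cm p) f Δ' := fib_supp hf hs' fun D => by
    by_cases hD : D ∈ 𝒟
    · exact ⟨1, by simp [hΔ', hD], zero_le_one, le_rfl⟩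
    · simp only [hΔ', if_neg hD]
      exact hq D
  have h2 : ∀ D, Δ D ≤ Δ' D := by
    intro D
    by_cases hD : D ∈ 𝒟
    · simp only [hΔ', if_pos hD]; exact hle1 D
    · simp only [hΔ', if_neg hD]; exact le_rfl
  obtain ⟨H', hH', hmain'⟩ := tul p d q m r X Y f Δ' a hd hf' hw 𝒟
    (fun D hD => by simp [hΔ', hD]) H₀ hH₀ hrk
  -- the small boundary
  obtain ⟨Δ₁, hΔ₁0, hΔ₁le, hΔ₁lt, hΔ₁h, H₁, hH₁, hmain₁⟩ : ∃ Δ₁ : Set X → ℝ,
      (∀ D, 0 ≤ Δ₁ D) ∧ (∀ D, Δ₁ D ≤ Δ D) ∧ (∀ D, Δ D < Δ' D → Δ₁ D < Δ D) ∧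
      (∀ D, Δ₁ D < Δ D → f '' D = univ) ∧
      ∃ H₁ : ℕ → Set Y, (∀ k, IsThinSet (Cm p) (H₁ k)) ∧ ∀ y, (∀ k, y ∉ H₁ k) →
        ∀ (F : Type) [TopologicalSpace F] [ChartedSpace (Cm d) F] (i : F → X),
        H511.Surf.IsFibre (Cm (p + d)) (Cm d) f y i →
        (((0 : ℕ) : ℕ∞) : WithBot ℕ∞) + TZ.S.kodF (p + d) p Δ₁ (id : X → X) f ≤
            TZ.S.kodX (Cm (p + d)) Δ₁ := by
    have hlt' : ∀ D, Δ D < Δ' D → D ∈ 𝒟 ∧ Δ D < 1 := by
      intro D hD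
      by_cases hD' : D ∈ 𝒟
      · simp only [hΔ', if_pos hD'] at hD
        exact ⟨hD', hD⟩
      · simp only [hΔ', if_neg hD'] at hD
        exact absurd hD (lt_irrefl _)
    rcases hsrc with hsrc | ⟨hN, hcnt, hsrc⟩
    · set Δ₁ : Set X → ℝ := fun D => if D ∈ 𝒟 ∧ Δ D < 1 then Δ D / 2 else Δ D with hΔ₁
      have hs₁ : ∀ D, Δ₁ D ≠ 0 ↔ Δ D ≠ 0 := by
        intro D
        by_cases hD : D ∈ 𝒟 ∧ Δ D < 1
        · simp only [hΔ₁, if_pos hD]
          have := hpos D hD.1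
          exact ⟨fun _ => this.ne', fun _ => by positivity⟩
        · simp only [hΔ₁, if_neg hD]
      have hf₁ : H511.Surf.IsFibration (Cm (p + d)) (Cm p) f Δ₁ := fib_supp hf hs₁ fun D => by
        by_cases hD : D ∈ 𝒟 ∧ Δ D < 1
        · simp only [hΔ₁, if_pos hD]
          obtain ⟨r, hr, hr0, hr1⟩ := hq D
          exact ⟨r / 2, by rw [hr]; push_cast; ring, by positivity, by linarith⟩
        · simp only [hΔ₁, if_neg hD]
          exact hq D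
      obtain ⟨H₁, hH₁, hmain₁⟩ := tul p d q₁ m 0 X Y f Δ₁ a₁ hd hf₁ hw 𝒟₁ (fun D hD => by
        have h3 := h𝒟₁ D hD
        have h4 : ¬ (D ∈ 𝒟 ∧ Δ D < 1) := fun h5 => by rw [h3] at h5; exact lt_irrefl _ h5.2
        simp only [hΔ₁, if_neg h4]
        exact h3) H₀ hH₀ hsrc
      refine ⟨Δ₁, fun D => ?_, fun D => ?_, fun D hD => ?_, fun D hD => ?_, H₁, hH₁,
        fun y hy F _ _ i hi => (hmain₁ y hy F i hi).1⟩
      · by_cases hD : D ∈ 𝒟 ∧ Δ D < 1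
        · simp only [hΔ₁, if_pos hD]
          have := hge0 D
          positivity
        · simp only [hΔ₁, if_neg hD]
          exact hge0 D
      · by_cases hD : D ∈ 𝒟 ∧ Δ D < 1
        · simp only [hΔ₁, if_pos hD]
          have := hge0 D
          linarith
        · simp only [hΔ₁, if_neg hD]
          exact le_rfl
      · have h3 := hlt' D hD
        simp only [hΔ₁, if_pos h3]
        have := hpos D h3.1
        linarith
      · by_cases hD' : D ∈ 𝒟 ∧ Δ D < 1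
        · exact (h𝒟 D hD'.1).2 hD'.2
        · simp only [hΔ₁, if_neg hD'] at hD
          exact absurd hD (lt_irrefl _)
    · have hNr : (0 : ℝ) < N := by exact_mod_cast hN
      set Δ₁ : Set X → ℝ := fun D => if D ∈ 𝒟 ∧ Δ D < 1 then ((cnt (a₂ 0) D : ℝ) / N + Δ D) / 2
        else Δ D with hΔ₁
      have hb : ∀ D ∈ 𝒟, Δ D < 1 → (cnt (a₂ 0) D : ℝ) / N < Δ D := by
        intro D hD hD1
        rw [div_lt_iff₀ hNr, mul_comm]
        exact hcnt D hD hD1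
      have hb0 : ∀ D, (0 : ℝ) ≤ (cnt (a₂ 0) D : ℝ) / N := fun D =>
        div_nonneg (Nat.cast_nonneg _) hNr.le
      have hs₁ : ∀ D, Δ₁ D ≠ 0 ↔ Δ D ≠ 0 := by
        intro D
        by_cases hD : D ∈ 𝒟 ∧ Δ D < 1
        · simp only [hΔ₁, if_pos hD]
          have h3 := hpos D hD.1
          have h4 := hb0 D
          exact ⟨fun _ => h3.ne', fun _ => by positivity⟩
        · simp only [hΔ₁, if_neg hD]
      have hf₁ : H511.Surf.IsFibration (Cm (p + d)) (Cm p) f Δ₁ := fib_supp hf hs₁ fun D => by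
        by_cases hD : D ∈ 𝒟 ∧ Δ D < 1
        · simp only [hΔ₁, if_pos hD]
          obtain ⟨r, hr, hr0, hr1⟩ := hq D
          have h3 := hb D hD.1 hD.2
          refine ⟨((cnt (a₂ 0) D : ℚ) / N + r) / 2, by rw [hr]; push_cast; ring, by positivity, ?_⟩
          have h4 : (((((cnt (a₂ 0) D : ℚ) / N + r) / 2 : ℚ)) : ℝ) ≤ 1 := by
            push_cast
            rw [← hr]
            have := hle1 D
            linarith
          exact_mod_cast h4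
        · simp only [hΔ₁, if_neg hD]
          exact hq D
      have hcN : ∀ D, cnt (a₂ 0) D ≤ N := by
        intro D
        unfold cnt
        refine (Finset.card_filter_le _ _).trans ?_
        simp
      obtain ⟨H₁, hH₁, hmain₁⟩ := tln p d 0 N X Y f Δ₁ a₂ hd hN hf₁ hw 𝒟 (fun D hD => by
        refine ⟨(hs₁ D).2 (h𝒟 D hD).1, fun s => ?_⟩
        have hs0 : s = 0 := Fin.ext (by have := s.isLt; simp only [Fin.val_zero]; omega)
        subst hs0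
        by_cases hD1 : D ∈ 𝒟 ∧ Δ D < 1
        · simp only [hΔ₁, if_pos hD1]
          have h3 := hb D hD hD1.2
          have h4 : (cnt (a₂ 0) D : ℝ) = N * ((cnt (a₂ 0) D : ℝ) / N) := by
            field_simp
          rw [h4]
          exact mul_le_mul_of_nonneg_left (by rw [← h4]; linarith) hNr.le
        · simp only [hΔ₁, if_neg hD1]
          have h3 : Δ D = 1 := by
            by_contra h3
            exact hD1 ⟨hD, lt_of_le_of_ne (hle1 D) h3⟩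
          rw [h3, mul_one]
          exact_mod_cast hcN D) H₀ hH₀ hsrc
      refine ⟨Δ₁, fun D => ?_, fun D => ?_, fun D hD => ?_, fun D hD => ?_, H₁, hH₁,
        fun y hy F _ _ i hi => (hmain₁ y hy F i hi).1⟩
      · by_cases hD : D ∈ 𝒟 ∧ Δ D < 1
        · simp only [hΔ₁, if_pos hD]
          have h3 := hge0 D
          have h4 := hb0 D
          positivity
        · simp only [hΔ₁, if_neg hD]
          exact hge0 D
      · by_cases hD : D ∈ 𝒟 ∧ Δ D < 1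
        · simp only [hΔ₁, if_pos hD]
          have := hb D hD.1 hD.2
          linarith
        · simp only [hΔ₁, if_neg hD]
          exact le_rfl
      · have h3 := hlt' D hD
        simp only [hΔ₁, if_pos h3]
        have := hb D h3.1 h3.2
        linarith
      · by_cases hD' : D ∈ 𝒟 ∧ Δ D < 1
        · exact (h𝒟 D hD'.1).2 hD'.2
        · simp only [hΔ₁, if_neg hD'] at hD
          exact absurd hD (lt_irrefl _)
  -- the conclusion
  refine ⟨fun k => if k % 2 = 0 then H' (k / 2) else H₁ (k / 2), fun k => ?_, ?_⟩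
  · dsimp only
    split_ifs
    · exact hH' _
    · exact hH₁ _
  intro y hy F _ _ i hi
  have hy' : ∀ k, y ∉ H' k := by
    intro k
    have h3 := hy (2 * k)
    have h4 : 2 * k % 2 = 0 := by omega
    have h5 : 2 * k / 2 = k := by omega
    simpa only [h4, h5, if_true] using h3
  have hy₁ : ∀ k, y ∉ H₁ k := by
    intro k
    have h3 := hy (2 * k + 1)
    have h4 : ¬ (2 * k + 1) % 2 = 0 := by omega
    have h5 : (2 * k + 1) / 2 = k := by omega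
    simpa only [h4, h5, if_false] using h3
  have h3 := (hmain' y hy' F i hi).1
  have h4 := hmain₁ y hy₁ F i hi
  have h5 : ((r : ℕ∞) : WithBot ℕ∞) + TZ.S.kodF (p + d) p Δ (id : X → X) f ≤
      TZ.S.kodX (Cm (p + d)) Δ :=
    round_le hf (fun D hD => (hs' D).1 hD) hΔ₁0 hΔ₁le h2 hΔ₁lt hΔ₁h
      (c₁ := (((0 : ℕ) : ℕ∞) : WithBot ℕ∞)) WithBot.coe_ne_bot h4 h3
  refine ⟨h5, fun hk => ?_⟩
  have h6 := (add_le_add hk (le_refl (TZ.S.kodF (p + d) p Δ (id : X → X) f))).trans h5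
  exact ⟨h6, fun hE => (add_le_add le_rfl (hkap (p + d) p X Y f Δ hf hE)).trans h6⟩

end Vale.Agent.P281.H495.UL
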