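import Vale.Agent.P281.H495.UL.Ext

/-!
P281 (helper495), project T-UL, block LE: the bound near the good points.
-/

set_option linter.all false

open Set Filter Metric
open scoped ContDiff Topology Manifold
open Vale.Agent.P281 Vale.Agent.P281.MF Vale.Agent.P281.ISO Vale.Agent.P281.H713

noncomputable section

namespace Vale.Agent.P281.H495.UL

section Diag

variable {d : ℕ}

/-- the diagonal map -/
def dg (a : Fin d → ℂ) : (Fin d → ℂ) →L[ℂ] (Fin d → ℂ) :=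
  LinearMap.toContinuousLinearMap (Matrix.toLin' (Matrix.diagonal a))

theorem dg_apply (a v : Fin d → ℂ) (i : Fin d) : dg a v i = a i * v i := by
  show (Matrix.toLin' (Matrix.diagonal a)) v i = _
  rw [Matrix.toLin'_apply, Matrix.mulVec_diagonal]

theorem dg_det (a : Fin d → ℂ) : (dg a).det = ∏ i, a i := by
  show LinearMap.det (Matrix.toLin' (Matrix.diagonal a)) = _
  rw [LinearMap.det_toLin', Matrix.det_diagonal]

theorem dg_norm {a : Fin d → ℂ} {κ : ℝ} (hκ : 0 ≤ κ) (ha : ∀ i, ‖a i‖ ≤ κ) (v : Fin d → ℂ) :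
    ‖dg a v‖ ≤ κ * ‖v‖ := by
  rw [pi_norm_le_iff_of_nonneg (by positivity)]
  intro i
  rw [dg_apply, norm_mul]
  exact mul_le_mul (ha i) (norm_le_pi_norm v i) (norm_nonneg _) hκ

/-- the scaling `(t / 2, κ, …, κ)` -/
def sc (κ : ℝ) (i₀ : Fin d) (t : ℂ) : Fin d → ℂ := Function.update (fun _ => (κ : ℂ)) i₀ (t / 2)

theorem sc_self (κ : ℝ) (i₀ : Fin d) (t : ℂ) : sc κ i₀ t i₀ = t / 2 := by simp [sc]

theorem sc_norm {κ : ℝ} (hκ : 0 ≤ κ) (i₀ : Fin d) {t : ℂ} (ht : ‖t‖ ≤ κ) (i : Fin d) :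
    ‖sc κ i₀ t i‖ ≤ κ := by
  by_cases hi : i = i₀
  · rw [hi, sc_self, norm_div]
    have : ‖(2 : ℂ)‖ = 2 := by simp
    rw [this]
    linarith [norm_nonneg t]
  · simp [sc, hi, abs_of_nonneg hκ]

theorem sc_prod {κ : ℝ} (hκ : 0 ≤ κ) (i₀ : Fin d) (t : ℂ) :
    ‖∏ i, sc κ i₀ t i‖ = ‖t‖ / 2 * κ ^ (Finset.univ \ {i₀} : Finset (Fin d)).card := by
  unfold sc
  rw [Finset.prod_update_of_mem (Finset.mem_univ i₀), Finset.prod_const, norm_mul, norm_div,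
    norm_pow]
  simp [abs_of_nonneg hκ]

end Diag

section Bd

variable {d : ℕ} {E E' : Type} [NormedAddCommGroup E] [NormedSpace ℂ E] [FiniteDimensional ℂ E]
  [NormedAddCommGroup E'] [NormedSpace ℂ E'] [FiniteDimensional ℂ E']
variable {X Y : Type} [TopologicalSpace X] [ChartedSpace E X] [IsManifold 𝓘(ℂ, E) ω X]
  [TopologicalSpace Y] [ChartedSpace E' Y] [IsManifold 𝓘(ℂ, E') ω Y]
  {f : X → Y} {ζ : X → (Fin d → ℂ)} {y : X}

/-- `v ↦ A (0, v)` -/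
def vert (A : (E' × (Fin d → ℂ)) →L[ℂ] (Fin d → ℂ)) : (Fin d → ℂ) →L[ℂ] (Fin d → ℂ) :=
  A.comp (ContinuousLinearMap.inr ℂ E' (Fin d → ℂ))

theorem det_ne_of_inj {A : (Fin d → ℂ) →L[ℂ] (Fin d → ℂ)} (h : ∀ v, A v = 0 → v = 0) :
    A.det ≠ 0 := by
  have h1 : LinearMap.ker (A : (Fin d → ℂ) →ₗ[ℂ] (Fin d → ℂ)) = ⊥ :=
    LinearMap.ker_eq_bot'.2 h
  have h3 := (LinearMap.isUnit_iff_ker_eq_bot _).2 h1
  exact (LinearMap.isUnit_det _ h3).ne_zero

/-- **the bound near a good point** -/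
theorem bound_near (e₀ : E ≃L[ℂ] (E' × (Fin d → ℂ))) (hf : ∀ z, HolM E E' f z)
    {𝒟 : Finset (Set X)} {Θ : X → ℂ} {N : ℕ} {e : Set X → X → ℂ}
    (hζ : IsFibreCoord E E' f ζ y) (he : ∀ D ∈ 𝒟, IsLocalEq E D (e D) y) {D₀ : Set X}
    (hD₀ : D₀ ∈ 𝒟) (hy : y ∈ D₀) (hoth : ∀ D ∈ 𝒟, D ≠ D₀ → y ∉ D)
    (htr : ∃ ξ, dM E E' f y ξ = 0 ∧ dif E (e D₀) y ξ ≠ 0) {C : ℝ} {W : Set X} (hW : W ∈ 𝓝 y)
    (hb : ∀ s : (Fin d → ℂ) → X,
        (∀ v ∈ ball (0 : Fin d → ℂ) 1, ContMDiffAt 𝓘(ℂ, Fin d → ℂ) 𝓘(ℂ, E) ω s v ∧ s v ∈ W ∧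
          f (s v) = f (s 0) ∧ ∀ D ∈ 𝒟, s v ∉ D ∧
            ‖fderiv ℂ (fun u => e D (s u)) v‖ ≤ ‖e D (s v)‖) →
        ∀ P : E →L[ℂ] (Fin d → ℂ),
        P.comp (mfderiv 𝓘(ℂ, Fin d → ℂ) 𝓘(ℂ, E) s 0 : (Fin d → ℂ) →L[ℂ] E) =
          ContinuousLinearMap.id ℂ (Fin d → ℂ) →
        ‖Θ (s 0)‖ ≤ C * ‖JP e₀ (dM E E' f (s 0)) P ^ N‖) :
    ∃ C' : ℝ, ∀ᶠ w in 𝓝 y, (∀ D ∈ 𝒟, w ∉ D) →
      ‖Θ w‖ * ‖∏ D ∈ 𝒟, e D w ^ N‖ ≤ C' * ‖JP e₀ (dM E E' f w) (dV E ζ w) ^ N‖ := by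
  classical
  have hζ' : HolV E ζ y := hζ.1
  obtain ⟨i₀, hψ⟩ := exists_coord e₀ (hf y) hζ (he D₀ hD₀).holAt htr
  set ψ : X → (Fin d → ℂ) := fun z => Function.update (ζ z) i₀ (e D₀ z) with hψd
  have hψi : ∀ z, ψ z i₀ = e D₀ z := fun z => by simp [hψd]
  have hψ' : HolV E ψ y := hψ.1
  obtain ⟨R, hR1, hRc, hRq, hRz⟩ := straighten e₀ (hf y) hψ
  set q₁ := Phi E' f ψ y y with hq₁
  have hRt : Tendsto R (𝓝 q₁) (𝓝 y) := by
    have := hRc.tendsto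
    rwa [hR1] at this
  have hR₁ : HolM (E' × (Fin d → ℂ)) E R q₁ := hRq.self_of_nhds.1
  -- the determinant
  set g : E' × (Fin d → ℂ) → (Fin d → ℂ) := fun q => ζ (R q) with hg
  have hgc : ContDiffAt ℂ ω g q₁ := holV_iff.1 (HolV.comp (by rw [hR1]; exact hζ') hR₁)
  have hdet : (vert (fderiv ℂ g q₁)).det ≠ 0 := by
    refine det_ne_of_inj fun v hv => ?_
    have h1 : fderiv ℂ g q₁ = (dV E ζ y).comp (dM (E' × (Fin d → ℂ)) E R q₁) := by
      have := dV_comp (h := ζ) (f := R) (x := q₁) (by rw [hR1]; exact hζ') hR₁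
      rw [dV_eq, hR1] at this
      exact this
    have h2 : dV E ζ y (dM (E' × (Fin d → ℂ)) E R q₁ (0, v)) = 0 := by
      have h3 : fderiv ℂ g q₁ (0, v) = 0 := hv
      rw [h1] at h3
      exact h3
    have h3 : dM E E' f y (dM (E' × (Fin d → ℂ)) E R q₁ (0, v)) = 0 := by
      have := dM_vert (c := (chartAt E' (f y)).symm) hf hR₁
        (hRq.mono fun q hq => hq.2.1) v
      rwa [hR1] at this
    have h4 := hζ.2 _ h3 h2
    have h5 : dV (E' × (Fin d → ℂ)) (fun q => ψ (R q)) q₁ =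
        (dV E ψ y).comp (dM (E' × (Fin d → ℂ)) E R q₁) := by
      have := dV_comp (h := ψ) (f := R) (x := q₁) (by rw [hR1]; exact hψ') hR₁
      rw [hR1] at this
      exact this
    have h6 : dV (E' × (Fin d → ℂ)) (fun q => ψ (R q)) q₁ =
        ContinuousLinearMap.snd ℂ E' (Fin d → ℂ) := by
      have h7 : (fun q => ψ (R q)) =ᶠ[𝓝 q₁] fun q => q.2 := hRq.mono fun q hq => hq.2.2.1
      rw [dV_congr h7, dV_eq]
      exact hasFDerivAt_snd.fderiv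
    rw [h6] at h5
    have h7 := congrArg (fun T : (E' × (Fin d → ℂ)) →L[ℂ] (Fin d → ℂ) => T (0, v)) h5
    simp only [ContinuousLinearMap.coe_snd', ContinuousLinearMap.comp_apply, h4, map_zero] at h7
    exact h7
  have hdc : ContinuousAt (fun q => (vert (fderiv ℂ g q)).det) q₁ := by
    have h1 : ContinuousAt (fderiv ℂ g) q₁ := (hgc.analyticAt.fderiv).continuousAt
    have h2 : Continuous fun A : (E' × (Fin d → ℂ)) →L[ℂ] (Fin d → ℂ) => vert A :=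
      (ContinuousLinearMap.compL ℂ (Fin d → ℂ) (E' × (Fin d → ℂ)) (Fin d → ℂ)).flip
        (ContinuousLinearMap.inr ℂ E' (Fin d → ℂ)) |>.continuous
    have h3 : Continuous fun A : (Fin d → ℂ) →L[ℂ] (Fin d → ℂ) => A.det :=
      (contDiff_det (V := Fin d → ℂ)).continuous
    exact ((h3.comp h2).continuousAt).comp h1
  obtain ⟨δ, hδ, hδ'⟩ : ∃ δ : ℝ, 0 < δ ∧ ∀ᶠ q in 𝓝 q₁, δ ≤ ‖(vert (fderiv ℂ g q)).det‖ := by
    have h0 : 0 < ‖(vert (fderiv ℂ g q₁)).det‖ := norm_pos_iff.2 hdet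
    refine ⟨‖(vert (fderiv ℂ g q₁)).det‖ / 2, by linarith, ?_⟩
    exact (hdc.norm.eventually_const_lt (by linarith)).mono fun q hq => hq.le
  -- the other divisors
  have hoth' : ∀ᶠ κ : ℝ in 𝓝[>] 0, ∀ D ∈ 𝒟, D ≠ D₀ → ∀ᶠ q in 𝓝 q₁,
      ‖fderiv ℂ (fun q => e D (R q)) q‖ * κ ≤ ‖e D (R q)‖ := by
    refine (Filter.eventually_all_finset 𝒟).2 fun D hD => ?_
    by_cases hDD : D = D₀
    · exact Filter.Eventually.of_forall fun κ h => absurd hDD h
    have h1 : HolV E (e D) (R q₁) := by rw [hR1]; exact (he D hD).holAt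
    have h2 : ContDiffAt ℂ ω (fun q => e D (R q)) q₁ := holV_iff.1 (HolV.comp h1 hR₁)
    have h3 : e D (R q₁) ≠ 0 := by
      rw [hR1]
      exact fun h => hoth D hD hDD ((he D hD).mem_iff.2 h)
    have h4 := norm_pos_iff.2 h3
    set B : ℝ := ‖fderiv ℂ (fun q => e D (R q)) q₁‖ + 1 with hB
    have hB0 : 0 < B := by positivity
    have h5 : ∀ᶠ q in 𝓝 q₁, ‖fderiv ℂ (fun q => e D (R q)) q‖ < B :=
      (h2.analyticAt.fderiv.continuousAt.norm).eventually_lt_const (by linarith)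
    have h6 : ∀ᶠ q in 𝓝 q₁, ‖e D (R q₁)‖ / 2 < ‖e D (R q)‖ :=
      (h2.continuousAt.norm).eventually_const_lt (by linarith)
    have h7 : (0 : ℝ) < ‖e D (R q₁)‖ / 2 / B := by positivity
    filter_upwards [Ioo_mem_nhdsGT h7] with κ hκ _
    filter_upwards [h5, h6] with q h8 h9
    have h10 : κ * B < ‖e D (R q₁)‖ / 2 := by rw [← lt_div_iff₀ hB0]; exact hκ.2
    nlinarith [hκ.1, norm_nonneg (fderiv ℂ (fun q => e D (R q)) q)]
  obtain ⟨κ₀, hκ₀, hκ₀0⟩ := (hoth'.and self_mem_nhdsWithin).exists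
  have hκ₀0' : (0 : ℝ) < κ₀ := hκ₀0
  have hκ₀' : ∀ᶠ q in 𝓝 q₁, ∀ D ∈ 𝒟, D ≠ D₀ →
      ‖fderiv ℂ (fun q => e D (R q)) q‖ * κ₀ ≤ ‖e D (R q)‖ ∧ e D (R q) ≠ 0 := by
    refine (Filter.eventually_all_finset 𝒟).2 fun D hD => ?_
    by_cases hDD : D = D₀
    · exact Filter.Eventually.of_forall fun q h => absurd hDD h
    have h1 : HolV E (e D) (R q₁) := by rw [hR1]; exact (he D hD).holAt
    have h2 : ContDiffAt ℂ ω (fun q => e D (R q)) q₁ := holV_iff.1 (HolV.comp h1 hR₁)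
    have h3 : e D (R q₁) ≠ 0 := by
      rw [hR1]
      exact fun h => hoth D hD hDD ((he D hD).mem_iff.2 h)
    filter_upwards [hκ₀ D hD hDD, h2.continuousAt.eventually_ne h3] with q h4 h5 _
    exact ⟨h4, h5⟩
  have good : ∀ᶠ q in 𝓝 q₁, (HolM (E' × (Fin d → ℂ)) E R q ∧
      f (R q) = (chartAt E' (f y)).symm q.1) ∧ (∀ᶠ q' in 𝓝 q, ψ (R q') = q'.2) ∧
      (∀ D ∈ 𝒟, IsLocalEq E D (e D) (R q)) ∧ R q ∈ W ∧
      (∀ D ∈ 𝒟, D ≠ D₀ →
        ‖fderiv ℂ (fun q => e D (R q)) q‖ * κ₀ ≤ ‖e D (R q)‖ ∧ e D (R q) ≠ 0) ∧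
      δ ≤ ‖(vert (fderiv ℂ g q)).det‖ ∧ HolV E ζ (R q) := by
    have h1 : ∀ᶠ z in 𝓝 y, ∀ D ∈ 𝒟, IsLocalEq E D (e D) z :=
      (Filter.eventually_all_finset 𝒟).2 fun D hD => (he D hD).eventually
    filter_upwards [hRq, eventually_eventually_nhds.2 hRq, hRt.eventually h1, hRt.eventually hW,
      hκ₀', hδ', hRt.eventually hζ'.eventually] with q a1 a2 a3 a4 a5 a6 a7
    exact ⟨⟨a1.1, a1.2.1⟩, a2.mono fun q' hq' => hq'.2.2.1, a3, a4, a5, a6, a7⟩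
  obtain ⟨r, hr, hgood⟩ := Metric.eventually_nhds_iff_ball.1 good
  set κ : ℝ := min κ₀ (r / 4) with hκ
  have hκ0 : 0 < κ := lt_min hκ₀0' (by linarith)
  have hκκ : κ ≤ κ₀ := min_le_left _ _
  have hκr : κ ≤ r / 4 := min_le_right _ _
  set m : ℕ := (Finset.univ \ {i₀} : Finset (Fin d)).card with hm
  -- the remaining equations
  have hrest : ContinuousAt (fun w => ∏ D ∈ 𝒟.erase D₀, e D w) y :=
    (HolV.prod (E := E) fun D hD => (he D (Finset.mem_of_mem_erase hD)).holAt).continuousAt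
  set B : ℝ := ‖∏ D ∈ 𝒟.erase D₀, e D y‖ + 1 with hB
  have hB0 : 0 < B := by positivity
  have hΦ := holV_Phi (E' := E') (hf y) hψ'
  have hey : e D₀ y = 0 := (he D₀ hD₀).mem_iff.1 hy
  have het : ∀ᶠ w in 𝓝 y, ‖e D₀ w‖ < κ :=
    ((he D₀ hD₀).holAt.continuousAt.norm).eventually_lt_const (by
      show ‖e D₀ y‖ < κ
      rw [hey, norm_zero]; exact hκ0)
  refine ⟨|C| * (2 * B / (δ * κ ^ m)) ^ N, ?_⟩
  filter_upwards [hRz, hΦ.continuousAt.eventually (ball_mem_nhds q₁ (half_pos hr)), het,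
    (hrest.norm).eventually_lt_const (show ‖∏ D ∈ 𝒟.erase D₀, e D y‖ < B by linarith),
    (he D₀ hD₀).eventually] with w hw1 hw2 hw3 hw4 hw5 hwD
  set t : ℂ := e D₀ w with ht
  have ht0 : t ≠ 0 := fun h => hwD D₀ hD₀ (hw5.mem_iff.2 h)
  have htn : 0 < ‖t‖ := norm_pos_iff.2 ht0
  set qw := Phi E' f ψ y w with hqw
  set L := dg (sc κ i₀ t) with hL
  have hLn : ∀ v, ‖L v‖ ≤ κ * ‖v‖ := dg_norm hκ0.le (sc_norm hκ0.le i₀ hw3.le)
  set j : (Fin d → ℂ) → E' × (Fin d → ℂ) := fun v => (qw.1, qw.2 + L v) with hj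
  have hj1 : ∀ v, HasFDerivAt j ((ContinuousLinearMap.inr ℂ E' (Fin d → ℂ)).comp L) v := by
    intro v
    have := (hasFDerivAt_const qw.1 v).prodMk ((L.hasFDerivAt (x := v)).const_add qw.2)
    exact this
  have hjc : ContDiff ℂ ω j := by
    have h1 : ContDiff ℂ ω fun v : Fin d → ℂ => L v := L.contDiff
    exact contDiff_const.prodMk (contDiff_const.add h1)
  have hj2 : ∀ v, HolM (Fin d → ℂ) (E' × (Fin d → ℂ)) j v := fun v =>
    hjc.contDiffAt.contMDiffAt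
  have hj0 : j 0 = qw := by simp [hj]
  have hjb : ∀ v ∈ ball (0 : Fin d → ℂ) 1, j v ∈ ball q₁ r := by
    intro v hv
    rw [mem_ball_zero_iff] at hv
    have h1 : dist (j v) qw ≤ κ := by
      have h2 : dist (j v) qw = ‖L v‖ := by
        rw [show qw = (qw.1, qw.2) from rfl, hj, Prod.dist_eq, dist_self, dist_eq_norm]
        simp
      rw [h2]
      exact (hLn v).trans (by nlinarith [hκ0])
    have h3 : dist qw q₁ < r / 2 := hw2
    rw [mem_ball]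
    calc dist (j v) q₁ ≤ dist (j v) qw + dist qw q₁ := dist_triangle _ _ _
      _ < r := by linarith
  have hqwi : qw.2 i₀ = t := hψi w
  have hji : ∀ v, (j v).2 i₀ = t + t / 2 * v i₀ := by
    intro v
    show (qw.2 + L v) i₀ = _
    rw [Pi.add_apply, hqwi, hL, dg_apply, sc_self]
  set s : (Fin d → ℂ) → X := fun v => R (j v) with hs
  have hs0 : s 0 = w := by
    show R (j 0) = w
    rw [hj0, hw1]
  have hsH : ∀ v ∈ ball (0 : Fin d → ℂ) 1, HolM (Fin d → ℂ) E s v := fun v hv =>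
    ContMDiffAt.comp (g := R) (f := j) v (hgood _ (hjb v hv)).1.1 (hj2 v)
  have h0b : (0 : Fin d → ℂ) ∈ ball (0 : Fin d → ℂ) 1 := mem_ball_self one_pos
  have hsle : ∀ v ∈ ball (0 : Fin d → ℂ) 1, ‖t‖ / 2 ≤ ‖t + t / 2 * v i₀‖ := by
    intro v hv
    rw [mem_ball_zero_iff] at hv
    have h1 : ‖v i₀‖ ≤ 1 := (norm_le_pi_norm v i₀).trans hv.le
    have h2 : ‖t / 2 * v i₀‖ ≤ ‖t‖ / 2 := by
      rw [norm_mul, norm_div]
      have : ‖(2 : ℂ)‖ = 2 := by simp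
      rw [this]
      nlinarith [norm_nonneg (v i₀)]
    have h3 := norm_sub_norm_le t (-(t / 2 * v i₀))
    rw [norm_neg, sub_neg_eq_add] at h3
    linarith
  have hslice : ∀ v ∈ ball (0 : Fin d → ℂ) 1, ContMDiffAt 𝓘(ℂ, Fin d → ℂ) 𝓘(ℂ, E) ω s v ∧
      s v ∈ W ∧ f (s v) = f (s 0) ∧ ∀ D ∈ 𝒟, s v ∉ D ∧
        ‖fderiv ℂ (fun u => e D (s u)) v‖ ≤ ‖e D (s v)‖ := by
    intro v hv
    obtain ⟨⟨b1, b2⟩, b3, b4, b5, b6, b7, b8⟩ := hgood _ (hjb v hv)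
    refine ⟨hsH v hv, b5, ?_, fun D hD => ?_⟩
    · have h1 := (hgood _ (hjb 0 h0b)).1.2
      show f (R (j v)) = f (R (j 0))
      rw [b2, h1]
    · by_cases hDD : D = D₀
      · subst hDD
        have h1 : ∀ᶠ u in 𝓝 v, e D (s u) = t + t / 2 * u i₀ := by
          have h2 : Tendsto j (𝓝 v) (𝓝 (j v)) := (hj1 v).continuousAt
          filter_upwards [h2.eventually b3] with u hu
          rw [← hψi, ← hji u, ← hu]
        have h3 : HasFDerivAt (fun u : Fin d → ℂ => t + t / 2 * u i₀)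
            ((t / 2) • ContinuousLinearMap.proj (R := ℂ) (φ := fun _ : Fin d => ℂ) i₀) v := by
          have h4 : HasFDerivAt (fun u : Fin d → ℂ => u i₀)
              (ContinuousLinearMap.proj (R := ℂ) (φ := fun _ : Fin d => ℂ) i₀) v :=
            (ContinuousLinearMap.proj (R := ℂ) (φ := fun _ : Fin d => ℂ) i₀).hasFDerivAt
          exact (h4.const_mul (t / 2)).const_add t
        have h5 : e D (s v) = t + t / 2 * v i₀ := h1.self_of_nhds
        have h6 := hsle v hv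
        refine ⟨fun h => ?_, ?_⟩
        · have h7 := (b4 D hD).mem_iff.1 h
          have h8 : e D (s v) = 0 := h7
          rw [h5] at h8
          rw [h8, norm_zero] at h6
          linarith
        · have h7 : fderiv ℂ (fun u => e D (s u)) v =
              (t / 2) • ContinuousLinearMap.proj (R := ℂ) (φ := fun _ : Fin d => ℂ) i₀ := by
            have h8 : (fun u => e D (s u)) =ᶠ[𝓝 v] fun u => t + t / 2 * u i₀ := h1
            rw [h8.fderiv_eq, h3.fderiv]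
          rw [h7, h5]
          refine le_trans ?_ h6
          refine ContinuousLinearMap.opNorm_le_bound _ (by positivity) fun u => ?_
          rw [ContinuousLinearMap.smul_apply, norm_smul, norm_div]
          have : ‖(2 : ℂ)‖ = 2 := by simp
          rw [this]
          exact mul_le_mul_of_nonneg_left (norm_le_pi_norm u i₀) (by positivity)
      · obtain ⟨h1, h2⟩ := b6 D hD hDD
        refine ⟨fun h => h2 ((b4 D hD).mem_iff.1 h), ?_⟩
        have h3 : ContDiffAt ℂ ω (fun q => e D (R q)) (j v) :=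
          holV_iff.1 (HolV.comp (b4 D hD).holAt b1)
        have h4 : fderiv ℂ (fun u => e D (s u)) v =
            (fderiv ℂ (fun q => e D (R q)) (j v)).comp
              ((ContinuousLinearMap.inr ℂ E' (Fin d → ℂ)).comp L) :=
          ((h3.differentiableAt (by simp)).hasFDerivAt.comp v (hj1 v)).fderiv
        rw [h4]
        refine le_trans ?_ h1
        refine ContinuousLinearMap.opNorm_le_bound _ (by positivity) fun u => ?_
        have h5 : ‖((ContinuousLinearMap.inr ℂ E' (Fin d → ℂ)).comp L) u‖ ≤ κ₀ * ‖u‖ := by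
          have h6 : ((ContinuousLinearMap.inr ℂ E' (Fin d → ℂ)).comp L) u = ((0 : E'), L u) := rfl
          rw [h6, Prod.norm_mk, norm_zero]
          have h7 := hLn u
          have h8 : κ * ‖u‖ ≤ κ₀ * ‖u‖ := mul_le_mul_of_nonneg_right hκκ (norm_nonneg _)
          exact max_le (by positivity) (h7.trans h8)
        rw [ContinuousLinearMap.comp_apply]
        calc _ ≤ ‖fderiv ℂ (fun q => e D (R q)) (j v)‖ *
              ‖((ContinuousLinearMap.inr ℂ E' (Fin d → ℂ)).comp L) u‖ :=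
              ContinuousLinearMap.le_opNorm _ _
          _ ≤ ‖fderiv ℂ (fun q => e D (R q)) (j v)‖ * (κ₀ * ‖u‖) :=
              mul_le_mul_of_nonneg_left h5 (norm_nonneg _)
          _ = _ := by ring
  -- the frame
  obtain ⟨⟨b1, b2⟩, b3, b4, b5, b6, b7, b8⟩ := hgood _ (hjb 0 h0b)
  set M : (Fin d → ℂ) →L[ℂ] (Fin d → ℂ) := (dV E ζ w).comp (dM (Fin d → ℂ) E s 0) with hM
  have hM1 : M = (vert (fderiv ℂ g qw)).comp L := by
    have h1 : dV (Fin d → ℂ) (fun v => ζ (s v)) 0 = (dV E ζ (s 0)).comp (dM (Fin d → ℂ) E s 0) :=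
      dV_comp (h := ζ) (f := s) b8 (hsH 0 h0b)
    have h2 : dV (Fin d → ℂ) (fun v => ζ (s v)) 0 =
        (fderiv ℂ g (j 0)).comp ((ContinuousLinearMap.inr ℂ E' (Fin d → ℂ)).comp L) := by
      have h3 : ContDiffAt ℂ ω g (j 0) := holV_iff.1 (HolV.comp b8 b1)
      rw [dV_eq]
      exact ((h3.differentiableAt (by simp)).hasFDerivAt.comp (0 : Fin d → ℂ) (hj1 0)).fderiv
    rw [hs0] at h1
    rw [hM, ← h1, h2, hj0]
    rfl
  have hdetM : M.det = (vert (fderiv ℂ g qw)).det * ∏ i, sc κ i₀ t i := by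
    rw [hM1, clm_det_comp, hL, dg_det]
  have hdetn : δ * (‖t‖ / 2 * κ ^ m) ≤ ‖M.det‖ := by
    rw [hdetM, norm_mul, sc_prod hκ0.le]
    rw [hj0] at b7
    exact mul_le_mul_of_nonneg_right b7 (by positivity)
  have hMpos : 0 < δ * (‖t‖ / 2 * κ ^ m) := by positivity
  have hMne : M.det ≠ 0 := by
    intro h
    rw [h, norm_zero] at hdetn
    linarith
  have hMinj : Function.Injective M := by
    rw [injective_iff_map_eq_zero]
    intro v hv
    by_contra hv0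
    apply hMne
    have h1 : (M : (Fin d → ℂ) →ₗ[ℂ] (Fin d → ℂ)).ker ≠ ⊥ := by
      intro h
      exact hv0 (LinearMap.ker_eq_bot'.1 h v hv)
    by_contra h2
    exact h1 ((LinearMap.isUnit_iff_ker_eq_bot _).1
      ((LinearMap.isUnit_iff_isUnit_det _).2 (Ne.isUnit h2)))
  obtain ⟨M', hM'⟩ := exists_left_inv hMinj
  have hMM : M'.comp M = ContinuousLinearMap.id ℂ (Fin d → ℂ) := by
    ext v; simp [hM' v]
  have hdet1 : M'.det * M.det = 1 := by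
    rw [← clm_det_comp, hMM]
    simp [ContinuousLinearMap.det]
  have hM'n : ‖M'.det‖ ≤ 1 / (δ * (‖t‖ / 2 * κ ^ m)) := by
    rw [le_div_iff₀ hMpos]
    have h1 : ‖M'.det‖ * ‖M.det‖ = 1 := by rw [← norm_mul, hdet1, norm_one]
    nlinarith [norm_nonneg M'.det]
  have hfin := hb s hslice (M'.comp (dV E ζ w)) (by
    show (M'.comp (dV E ζ w)).comp (dM (Fin d → ℂ) E s 0) = _
    rw [ContinuousLinearMap.comp_assoc]
    exact hMM)
  rw [hs0] at hfin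
  have hJP : JP e₀ (dM E E' f w) (M'.comp (dV E ζ w)) =
      M'.det * JP e₀ (dM E E' f w) (dV E ζ w) := by
    have h1 := JP_left e₀ (dM E E' f w) (dV E ζ w) (ContinuousLinearMap.id ℂ E') M'
    rw [show (ContinuousLinearMap.id ℂ E').comp (dM E E' f w) = dM E E' f w by ext x; rfl] at h1
    rw [h1]
    simp [ContinuousLinearMap.det]
  rw [hJP, mul_pow, norm_mul] at hfin
  set Jn := ‖JP e₀ (dM E E' f w) (dV E ζ w) ^ N‖ with hJn
  have hJn0 : 0 ≤ Jn := norm_nonneg _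
  have h1 : ‖Θ w‖ ≤ |C| * ((1 / (δ * (‖t‖ / 2 * κ ^ m))) ^ N * Jn) := by
    refine hfin.trans ?_
    have h2 : C * (‖M'.det ^ N‖ * Jn) ≤ |C| * (‖M'.det ^ N‖ * Jn) :=
      mul_le_mul_of_nonneg_right (le_abs_self C) (by positivity)
    refine h2.trans ?_
    have h3 : ‖M'.det ^ N‖ ≤ (1 / (δ * (‖t‖ / 2 * κ ^ m))) ^ N := by
      rw [norm_pow]
      exact pow_le_pow_left₀ (norm_nonneg _) hM'n N
    exact mul_le_mul_of_nonneg_left (mul_le_mul_of_nonneg_right h3 hJn0) (abs_nonneg C)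
  have h2 : ‖∏ D ∈ 𝒟, e D w ^ N‖ ≤ (‖t‖ * B) ^ N := by
    rw [Finset.prod_pow, norm_pow]
    refine pow_le_pow_left₀ (norm_nonneg _) ?_ N
    rw [← Finset.mul_prod_erase 𝒟 (fun D => e D w) hD₀, norm_mul]
    exact mul_le_mul_of_nonneg_left hw4.le (norm_nonneg _)
  have h3 : (0 : ℝ) ≤ |C| * ((1 / (δ * (‖t‖ / 2 * κ ^ m))) ^ N * Jn) := by positivity
  calc ‖Θ w‖ * ‖∏ D ∈ 𝒟, e D w ^ N‖
      ≤ (|C| * ((1 / (δ * (‖t‖ / 2 * κ ^ m))) ^ N * Jn)) * (‖t‖ * B) ^ N :=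
        mul_le_mul h1 h2 (norm_nonneg _) h3
    _ = |C| * ((1 / (δ * (‖t‖ / 2 * κ ^ m))) * (‖t‖ * B)) ^ N * Jn := by
        rw [mul_pow (1 / (δ * (‖t‖ / 2 * κ ^ m))) (‖t‖ * B) N]
        generalize (1 / (δ * (‖t‖ / 2 * κ ^ m))) ^ N = a
        generalize (‖t‖ * B) ^ N = b
        ring
    _ = |C| * (2 * B / (δ * κ ^ m)) ^ N * Jn := by
        congr 3
        field_simp

end Bd

end Vale.Agent.P281.H495.UL
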