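import Vale.Agent.P281.ISO.Ext3
import Vale.Agent.P281.H969.Gen.Fin
import Vale.Agent.P281.H495.TW.Loc
import Vale.Agent.P281.MF.Lin
import Vale.Agent.P281.H713.DefsG
import Vale.Agent.P281.ISO.RelBound

/-!
P281 (helper495), project T-UL, block LE: straightening of a submersion `f` with a fibre coordinate,
transversal points of prime divisors.
-/

set_option linter.all false

open Set Filter Metric
open scoped ContDiff Topology Manifold
open Vale.Agent.P281 Vale.Agent.P281.MF Vale.Agent.P281.ISO Vale.Agent.P281.H713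

noncomputable section

namespace Vale.Agent.P281.H495.UL

section LI

variable {E W : Type} [NormedAddCommGroup E] [NormedSpace ℂ E] [FiniteDimensional ℂ E]
  [NormedAddCommGroup W] [NormedSpace ℂ W] [FiniteDimensional ℂ W]
variable {X : Type} [TopologicalSpace X] [ChartedSpace E X] [IsManifold 𝓘(ℂ, E) ω X]

/-- the local inverse of a holomorphic map to a vector space with bijective differential -/
theorem exists_inv {Φ : X → W} {x : X} (hΦ : HolV E Φ x)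
    (hb : Function.Bijective (dV E Φ x)) :
    ∃ R : W → X, R (Φ x) = x ∧ ContinuousAt R (Φ x) ∧
      (∀ᶠ q in 𝓝 (Φ x), HolM W E R q ∧ Φ (R q) = q) ∧ ∀ᶠ z in 𝓝 x, R (Φ z) = z := by
  have : CompleteSpace E := FiniteDimensional.complete ℂ E
  have : CompleteSpace W := FiniteDimensional.complete ℂ W
  set φ := chartAt E x with hφ
  have hx : x ∈ φ.source := mem_chart_source E x
  set F : E → W := Φ ∘ φ.symm with hF
  have hFa : AnalyticAt ℂ F (φ x) := rep_analytic hΦ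
  have hFx : F (φ x) = Φ x := by simp [hF, φ.left_inv hx]
  have hd : dV E Φ x = (fderiv ℂ F (φ x)).comp (dV E (φ : X → E) x) := dV_eq_chart hx hΦ
  have hsφ : Function.Surjective (dV E (φ : X → E) x) := dV_chart_surj hx
  have hs : Function.Surjective (fderiv ℂ F (φ x)) := by
    intro w
    obtain ⟨ξ, hξ⟩ := hb.2 w
    exact ⟨dV E (φ : X → E) x ξ, by rw [← hξ, hd]; rfl⟩
  have hi : ∀ u, fderiv ℂ F (φ x) u = 0 → u = 0 := by
    intro u hu
    obtain ⟨ξ, rfl⟩ := hsφ u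
    have h1 : dV E Φ x ξ = 0 := by rw [hd]; exact hu
    have h2 : ξ = 0 := hb.1 (by rw [h1, map_zero])
    rw [h2, map_zero]
  obtain ⟨κ, R₀, hRa, hR0, hRr, hRl⟩ := H150.Gen.exists_straight hFa hs
  have hker : ∀ k : LinearMap.ker (fderiv ℂ F (φ x) : E →ₗ[ℂ] W), k = 0 := by
    intro k
    exact Subtype.ext (hi _ (by simpa using k.2))
  rw [hker (κ (φ x)), hFx] at hRa hR0 hRr
  set R₁ : W → E := fun q => R₀ (q, 0) with hR₁
  have hR₁a : AnalyticAt ℂ R₁ (Φ x) :=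
    AnalyticAt.fun_comp (g := R₀) (f := fun q : W => (q,
      (0 : LinearMap.ker (fderiv ℂ F (φ x) : E →ₗ[ℂ] W)))) hRa
      (analyticAt_id.prod analyticAt_const)
  have hR₁0 : R₁ (Φ x) = φ x := hR0
  have hR₁c : Tendsto R₁ (𝓝 (Φ x)) (𝓝 (φ x)) := by
    have := hR₁a.continuousAt.tendsto
    rwa [hR₁0] at this
  have ht : φ x ∈ φ.target := φ.map_source hx
  have hemb : Tendsto (fun q : W => (q, (0 : LinearMap.ker (fderiv ℂ F (φ x) : E →ₗ[ℂ] W))))
      (𝓝 (Φ x)) (𝓝 (Φ x, 0)) := by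
    have : Continuous fun q : W => (q, (0 : LinearMap.ker (fderiv ℂ F (φ x) : E →ₗ[ℂ] W))) := by
      fun_prop
    exact this.tendsto _
  refine ⟨fun q => φ.symm (R₁ q), ?_, ?_, ?_, ?_⟩
  · show φ.symm (R₁ (Φ x)) = x
    rw [hR₁0, φ.left_inv hx]
  · have h1 : ContinuousAt φ.symm (R₁ (Φ x)) := by
      rw [hR₁0]
      exact φ.continuousAt_symm ht
    exact ContinuousAt.comp (g := φ.symm) (f := R₁) h1 hR₁a.continuousAt
  · filter_upwards [hR₁a.eventually_analyticAt, hR₁c.eventually (φ.open_target.mem_nhds ht),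
      hemb.eventually hRr] with q h1 h2 h3
    refine ⟨?_, h3⟩
    have hmem : φ ∈ IsManifold.maximalAtlas 𝓘(ℂ, E) ω X := IsManifold.chart_mem_maximalAtlas _
    have h4 : ContMDiffAt 𝓘(ℂ, E) 𝓘(ℂ, E) ω φ.symm (R₁ q) :=
      contMDiffAt_symm_of_mem_maximalAtlas hmem h2
    have h5 : ContMDiffAt 𝓘(ℂ, W) 𝓘(ℂ, E) ω R₁ q := h1.contDiffAt.contMDiffAt
    exact ContMDiffAt.comp q h4 h5
  · filter_upwards [φ.open_source.mem_nhds hx, (tendsto_chart (E := E) x).eventually hRl]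
      with z hz hz2
    have h1 : F (φ z) = Φ z := by simp [hF, φ.left_inv hz]
    rw [hker (κ _)] at hz2
    show φ.symm (R₀ (Φ z, 0)) = z
    rw [← h1]
    rw [hz2, φ.left_inv hz]

end LI

section Str

variable {d : ℕ} {E E' : Type} [NormedAddCommGroup E] [NormedSpace ℂ E] [FiniteDimensional ℂ E]
  [NormedAddCommGroup E'] [NormedSpace ℂ E'] [FiniteDimensional ℂ E']
variable {X Y : Type} [TopologicalSpace X] [ChartedSpace E X] [IsManifold 𝓘(ℂ, E) ω X]
  [TopologicalSpace Y] [ChartedSpace E' Y] [IsManifold 𝓘(ℂ, E') ω Y]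
  {f : X → Y} {ζ : X → (Fin d → ℂ)} {x : X}

/-- `(f, ζ)` in the chart of `Y` at `f x` -/
def Phi (E' : Type) [NormedAddCommGroup E'] [NormedSpace ℂ E'] [ChartedSpace E' Y]
    (f : X → Y) (ζ : X → (Fin d → ℂ)) (x : X) (z : X) : E' × (Fin d → ℂ) :=
  (chartAt E' (f x) (f z), ζ z)

theorem holV_chartf (hf : HolM E E' f x) : HolV E (fun z => chartAt E' (f x) (f z)) x :=
  HolV.comp (HolV.chart (mem_chart_source E' (f x))) hf

theorem holV_Phi (hf : HolM E E' f x) (hζ : HolV E ζ x) : HolV E (Phi E' f ζ x) x :=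
  (holV_chartf hf).prodMk hζ

theorem dV_chartf_eq_zero (hf : HolM E E' f x) (ξ : E) :
    dV E (fun z => chartAt E' (f x) (f z)) x ξ = 0 ↔ dM E E' f x ξ = 0 := by
  have hy : f x ∈ (chartAt E' (f x)).source := mem_chart_source E' (f x)
  rw [dV_comp (h := (chartAt E' (f x) : Y → E')) (HolV.chart hy) hf]
  obtain ⟨A, hA⟩ := dV_chart_leftInv (E := E') hy
  constructor
  · intro h
    have h1 := congrArg (fun T : E' →L[ℂ] E' => T (dM E E' f x ξ)) hA
    simp only [ContinuousLinearMap.comp_apply, ContinuousLinearMap.id_apply] at h1 h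
    rw [h, map_zero] at h1
    exact h1.symm
  · intro h
    rw [ContinuousLinearMap.comp_apply, h, map_zero]

theorem bij_Phi (e₀ : E ≃L[ℂ] (E' × (Fin d → ℂ))) (hf : HolM E E' f x)
    (hζ : IsFibreCoord E E' f ζ x) : Function.Bijective (dV E (Phi E' f ζ x) x) := by
  have h1 : dV E (Phi E' f ζ x) x =
      (dV E (fun z => chartAt E' (f x) (f z)) x).prod (dV E ζ x) :=
    dV_prodMk (holV_chartf hf) hζ.1
  have hinj : Function.Injective ((dV E (Phi E' f ζ x) x : E →L[ℂ] (E' × (Fin d → ℂ))) :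
      E →ₗ[ℂ] (E' × (Fin d → ℂ))) := by
    rw [injective_iff_map_eq_zero]
    intro ξ hξ
    rw [h1] at hξ
    have h2 : dV E (fun z => chartAt E' (f x) (f z)) x ξ = 0 := (Prod.mk.inj hξ).1
    have h3 : dV E ζ x ξ = 0 := (Prod.mk.inj hξ).2
    exact hζ.2 ξ ((dV_chartf_eq_zero hf ξ).1 h2) h3
  have hfr : Module.finrank ℂ E = Module.finrank ℂ (E' × (Fin d → ℂ)) :=
    e₀.toLinearEquiv.finrank_eq
  exact ⟨hinj, (LinearMap.injective_iff_surjective_of_finrank_eq_finrank hfr).1 hinj⟩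

/-- **straightening** of `f` by a fibre coordinate -/
theorem straighten (e₀ : E ≃L[ℂ] (E' × (Fin d → ℂ))) (hf : HolM E E' f x)
    (hζ : IsFibreCoord E E' f ζ x) :
    ∃ R : E' × (Fin d → ℂ) → X, R (Phi E' f ζ x x) = x ∧ ContinuousAt R (Phi E' f ζ x x) ∧
      (∀ᶠ q in 𝓝 (Phi E' f ζ x x), HolM (E' × (Fin d → ℂ)) E R q ∧
        f (R q) = (chartAt E' (f x)).symm q.1 ∧ ζ (R q) = q.2 ∧ Phi E' f ζ x (R q) = q) ∧
      ∀ᶠ z in 𝓝 x, R (Phi E' f ζ x z) = z := by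
  obtain ⟨R, h1, h2, h3, h4⟩ := exists_inv (holV_Phi hf hζ.1) (bij_Phi e₀ hf hζ)
  refine ⟨R, h1, h2, ?_, h4⟩
  have hy : f x ∈ (chartAt E' (f x)).source := mem_chart_source E' (f x)
  have h5 : Tendsto (fun q => f (R q)) (𝓝 (Phi E' f ζ x x)) (𝓝 (f x)) := by
    have h6 : Tendsto R (𝓝 (Phi E' f ζ x x)) (𝓝 x) := by
      have := h2.tendsto
      rwa [h1] at this
    exact (HolM.continuousAt hf).tendsto.comp h6
  filter_upwards [h3, h5.eventually ((chartAt E' (f x)).open_source.mem_nhds hy)] with q hq hq2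
  have h7 : chartAt E' (f x) (f (R q)) = q.1 := congrArg Prod.fst hq.2
  refine ⟨hq.1, ?_, congrArg Prod.snd hq.2, hq.2⟩
  rw [← h7, (chartAt E' (f x)).left_inv hq2]

end Str

section Comp

variable {E₁ E₂ E₃ : Type} [NormedAddCommGroup E₁] [NormedSpace ℂ E₁]
  [NormedAddCommGroup E₂] [NormedSpace ℂ E₂] [NormedAddCommGroup E₃] [NormedSpace ℂ E₃]
  {X₁ X₂ X₃ : Type} [TopologicalSpace X₁] [ChartedSpace E₁ X₁] [TopologicalSpace X₂]
  [ChartedSpace E₂ X₂] [TopologicalSpace X₃] [ChartedSpace E₃ X₃]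

theorem dM_comp {g : X₂ → X₃} {f : X₁ → X₂} {x : X₁} (hg : HolM E₂ E₃ g (f x))
    (hf : HolM E₁ E₂ f x) :
    dM E₁ E₃ (fun z => g (f z)) x = (dM E₂ E₃ g (f x)).comp (dM E₁ E₂ f x) :=
  mfderiv_comp x (ContMDiffAt.mdifferentiableAt hg (by simp))
    (ContMDiffAt.mdifferentiableAt hf (by simp))

theorem dM_const_of {f : X₁ → X₂} {x : X₁} {c : X₂} (h : ∀ᶠ z in 𝓝 x, f z = c) :
    dM E₁ E₂ f x = 0 := by
  have h1 : f =ᶠ[𝓝 x] fun _ => c := h
  unfold dM
  rw [h1.mfderiv_eq, mfderiv_const]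
  rfl

theorem holV_iff {W V : Type} [NormedAddCommGroup W] [NormedSpace ℂ W] [NormedAddCommGroup V]
    [NormedSpace ℂ V] {g : W → V} {w : W} : HolV W g w ↔ ContDiffAt ℂ ω g w :=
  contMDiffAt_iff_contDiffAt

theorem dV_eq {W V : Type} [NormedAddCommGroup W] [NormedSpace ℂ W] [NormedAddCommGroup V]
    [NormedSpace ℂ V] {g : W → V} {w : W} : dV W g w = fderiv ℂ g w := by
  unfold dV
  exact mfderiv_eq_fderiv

end Comp

section Trans

variable {d : ℕ} {E E' : Type} [NormedAddCommGroup E] [NormedSpace ℂ E] [FiniteDimensional ℂ E]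
  [NormedAddCommGroup E'] [NormedSpace ℂ E'] [FiniteDimensional ℂ E']
variable {X Y : Type} [TopologicalSpace X] [ChartedSpace E X] [IsManifold 𝓘(ℂ, E) ω X]
  [TopologicalSpace Y] [ChartedSpace E' Y] [IsManifold 𝓘(ℂ, E') ω Y]
  {f : X → Y} {ζ : X → (Fin d → ℂ)}

/-- the directions `(0, k)` are tangent to the fibres -/
theorem dM_vert (hf : ∀ z, HolM E E' f z) {R : E' × (Fin d → ℂ) → X} {q : E' × (Fin d → ℂ)}
    {c : E' → Y} (hR : HolM (E' × (Fin d → ℂ)) E R q) (h : ∀ᶠ q' in 𝓝 q, f (R q') = c q'.1)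
    (k : Fin d → ℂ) : dM E E' f (R q) (dM (E' × (Fin d → ℂ)) E R q ((0 : E'), k)) = 0 := by
  set j : (Fin d → ℂ) → E' × (Fin d → ℂ) := fun b => (q.1, b) with hj
  have hj1 : HasFDerivAt j (ContinuousLinearMap.inr ℂ E' (Fin d → ℂ)) q.2 := by
    have := (hasFDerivAt_const q.1 q.2).prodMk (hasFDerivAt_id (𝕜 := ℂ) q.2)
    exact this
  have hj2 : HolM (Fin d → ℂ) (E' × (Fin d → ℂ)) j q.2 := by
    have : ContDiff ℂ ω j := by fun_prop
    exact this.contDiffAt.contMDiffAt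
  have hjq : j q.2 = q := rfl
  have h1 : dM (Fin d → ℂ) E' (fun b => f (R (j b))) q.2 = 0 := by
    refine dM_const_of (c := c q.1) ?_
    have h2 : Tendsto j (𝓝 q.2) (𝓝 q) := hj1.continuousAt
    exact h2.eventually h
  have h3 : dM (Fin d → ℂ) E' (fun b => f (R (j b))) q.2 =
      (dM E E' f (R q)).comp ((dM (E' × (Fin d → ℂ)) E R q).comp
        (dM (Fin d → ℂ) (E' × (Fin d → ℂ)) j q.2)) := by
    rw [dM_comp (g := f) (f := fun b => R (j b)) (hf _)
      (ContMDiffAt.comp (g := R) (f := j) q.2 hR hj2), dM_comp (g := R) (f := j) hR hj2]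
  have h4 : dM (Fin d → ℂ) (E' × (Fin d → ℂ)) j q.2 = ContinuousLinearMap.inr ℂ E' (Fin d → ℂ) := by
    unfold dM
    rw [mfderiv_eq_fderiv]
    exact hj1.fderiv
  rw [h1, h4] at h3
  exact (congrArg (fun T : (Fin d → ℂ) →L[ℂ] E' => T k) h3).symm

/-- a prime divisor which contains no piece of a fibre has points where it is transversal to the
fibres -/
theorem exists_trans (e₀ : E ≃L[ℂ] (E' × (Fin d → ℂ))) (hf : ∀ z, HolM E E' f z) {D : Set X}
    {g : X → ℂ} {z' : X} (hζ : IsFibreCoord E E' f ζ z') (hg : IsLocalEq E D g z') (hz' : z' ∈ D)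
    (thin : ∀ᶠ y in 𝓝 z', ∃ᶠ w in 𝓝 y, f w = f y ∧ w ∉ D) {N : Set X} (hN : N ∈ 𝓝 z') :
    ∃ y ∈ N, y ∈ D ∧ ∃ ξ, dM E E' f y ξ = 0 ∧ dif E g y ξ ≠ 0 := by
  by_contra hcon
  push Not at hcon
  obtain ⟨R, hR1, hRc, hRq, hRz⟩ := straighten e₀ (hf z') hζ
  set q₁ := Phi E' f ζ z' z' with hq₁
  have hRt : Tendsto R (𝓝 q₁) (𝓝 z') := by
    have := hRc.tendsto
    rwa [hR1] at this
  set G : E' × (Fin d → ℂ) → ℂ := fun q => g (R q) with hG
  have good : ∀ᶠ q in 𝓝 q₁, (HolM (E' × (Fin d → ℂ)) E R q ∧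
      (∀ᶠ q' in 𝓝 q, f (R q') = (chartAt E' (f z')).symm q'.1)) ∧
      IsLocalEq E D g (R q) ∧ R q ∈ N := by
    filter_upwards [hRq, eventually_eventually_nhds.2 hRq, hRt.eventually hg.eventually,
      hRt.eventually hN] with q h1 h2 h3 h4
    exact ⟨⟨h1.1, h2.mono fun q' hq' => hq'.2.1⟩, h3, h4⟩
  obtain ⟨r, hr, hgood⟩ := Metric.eventually_nhds_iff_ball.1 good
  rw [show q₁ = (q₁.1, q₁.2) from rfl, ← ball_prod_same] at hgood
  have hGv : ∀ q ∈ ball q₁.1 r ×ˢ ball q₁.2 r, ContDiffAt ℂ ω G q := fun q hq =>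
    holV_iff.1 (HolV.comp (hgood q hq).2.1.holAt (hgood q hq).1.1)
  have hGd : ∀ q ∈ ball q₁.1 r ×ˢ ball q₁.2 r, fderiv ℂ G q =
      (dif E g (R q)).comp (dM (E' × (Fin d → ℂ)) E R q) := fun q hq => by
    rw [← dV_eq, dif_eq_dV]
    exact dV_comp (hgood q hq).2.1.holAt (hgood q hq).1.1
  have key : ∀ q ∈ ball q₁.1 r ×ˢ ball q₁.2 r, G q = 0 → fderiv ℂ G q ≠ 0 →
      ∀ k : Fin d → ℂ, fderiv ℂ G q (0, k) = 0 := by
    intro q hq h0 _ k
    obtain ⟨⟨g1, g2⟩, g3, g4⟩ := hgood q hq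
    rw [hGd q hq]
    exact hcon (R q) g4 (g3.mem_iff.2 h0) _ (dM_vert hf g1 g2 k)
  have hsm := mem_closure_iff_frequently.1 ((leq_dense_dif hg).self_of_nhds hz')
  have hΦ := holV_Phi (hf z') hζ.1
  have hB : ∀ᶠ y in 𝓝 z', Phi E' f ζ z' y ∈ ball q₁.1 r ×ˢ ball q₁.2 r :=
    hΦ.continuousAt.eventually ((isOpen_ball.prod isOpen_ball).mem_nhds
      (⟨mem_ball_self hr, mem_ball_self hr⟩ : q₁ ∈ ball q₁.1 r ×ˢ ball q₁.2 r))
  obtain ⟨y, ⟨hyD, hyd⟩, hyB, hyR, hyg, hyt, hyΦ⟩ := (hsm.and_eventually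
    ((hB.eventually_nhds).and ((eventually_eventually_nhds.2 hRz).and
      ((eventually_eventually_nhds.2 hg.eventually).and
        (thin.and hΦ.eventually))))).exists
  have hyG : g =ᶠ[𝓝 y] fun z => G (Phi E' f ζ z' z) := by
    filter_upwards [hyR] with z hz
    show g z = g (R (Phi E' f ζ z' z))
    rw [hz]
  have hyd' : fderiv ℂ G (Phi E' f ζ z' y) ≠ 0 := by
    intro h
    apply hyd
    rw [dif_eq_dV, dV_congr hyG, dV_comp_contDiff (hGv _ hyB.self_of_nhds) hyΦ, h,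
      ContinuousLinearMap.zero_comp]
  have hy0 : G (Phi E' f ζ z' y) = 0 := by
    show g (R (Phi E' f ζ z' y)) = 0
    rw [hyR.self_of_nhds]
    exact hyg.self_of_nhds.mem_iff.1 hyD
  obtain ⟨w, ⟨hwf, hwD⟩, hwR, hwB, hwg⟩ := (hyt.and_eventually (hyR.and (hyB.and hyg))).exists
  apply hwD
  refine hwg.mem_iff.2 ?_
  have h1 : G ((Phi E' f ζ z' y).1, ζ w) = 0 :=
    TW.sat (Q := E') (K := Fin d → ℂ) (B := ball q₁.1 r) (b₀ := q₁.2) (r := r) isOpen_ball
      (fun q hq => (hGv q hq).analyticAt) key hyB.self_of_nhds.1 hyB.self_of_nhds.2 hy0 hyd' hwB.2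
  have h2 : Phi E' f ζ z' w = ((Phi E' f ζ z' y).1, ζ w) := by
    unfold Phi
    rw [hwf]
  rw [← h2] at h1
  have h3 : g (R (Phi E' f ζ z' w)) = 0 := h1
  rwa [hwR] at h3

end Trans

end Vale.Agent.P281.H495.UL
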