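import Vale.Agent.P281.H511.UL.Spec
import Vale.Agent.P281.H495.UL.Str

/-!
P281 (helper495), project T-UL, block LE: the logarithmic extension.
-/

set_option linter.all false

open Set Filter Metric
open scoped ContDiff Topology Manifold
open Vale.Agent.P281 Vale.Agent.P281.MF Vale.Agent.P281.ISO Vale.Agent.P281.H713

noncomputable section

namespace Vale.Agent.P281.H495.UL

section Coord

variable {d : ℕ} {E E' : Type} [NormedAddCommGroup E] [NormedSpace ℂ E] [FiniteDimensional ℂ E]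
  [NormedAddCommGroup E'] [NormedSpace ℂ E'] [FiniteDimensional ℂ E']
variable {X Y : Type} [TopologicalSpace X] [ChartedSpace E X] [IsManifold 𝓘(ℂ, E) ω X]
  [TopologicalSpace Y] [ChartedSpace E' Y] [IsManifold 𝓘(ℂ, E') ω Y]
  {f : X → Y} {ζ : X → (Fin d → ℂ)} {x : X}

/-- fibre coordinates are fibre coordinates at the neighbouring points -/
theorem coord_eventually (e₀ : E ≃L[ℂ] (E' × (Fin d → ℂ))) (hf : ∀ z, HolM E E' f z)
    (hζ : IsFibreCoord E E' f ζ x) : ∀ᶠ z in 𝓝 x, IsFibreCoord E E' f ζ z := by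
  obtain ⟨R, hR1, hRc, hRq, hRz⟩ := straighten e₀ (hf x) hζ
  have hΦ := holV_Phi (hf x) hζ.1
  have hζ' : HolV E ζ x := hζ.1
  filter_upwards [hΦ.eventually, hζ'.eventually, eventually_eventually_nhds.2 hRz,
    hΦ.continuousAt.eventually hRq,
    (hf x).continuousAt.eventually ((chartAt E' (f x)).open_source.mem_nhds
      (mem_chart_source E' (f x)))] with z h1 h2 h3 h4 h5
  refine ⟨h2, fun ξ hξ hξ' => ?_⟩
  have e1 : HolV E (fun z => chartAt E' (f x) (f z)) z :=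
    HolV.comp (h := (chartAt E' (f x) : Y → E')) (HolV.chart h5) (hf z)
  have e2 : dV E (fun z => chartAt E' (f x) (f z)) z ξ = 0 := by
    rw [dV_comp (h := (chartAt E' (f x) : Y → E')) (HolV.chart h5) (hf z),
      ContinuousLinearMap.comp_apply]
    have : dM E E' f z ξ = 0 := hξ
    rw [this, map_zero]
  have e3 : dV E (Phi E' f ζ x) z ξ = 0 := by
    have : dV E (Phi E' f ζ x) z =
        (dV E (fun z => chartAt E' (f x) (f z)) z).prod (dV E ζ z) := dV_prodMk e1 h2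
    rw [this, ContinuousLinearMap.prod_apply, e2]
    have h6 : dV E ζ z ξ = 0 := hξ'
    rw [h6]
    rfl
  have e4 : dM E E (fun z => R (Phi E' f ζ x z)) z =
      (dM (E' × (Fin d → ℂ)) E R (Phi E' f ζ x z)).comp (dM E (E' × (Fin d → ℂ)) (Phi E' f ζ x) z) :=
    dM_comp (g := R) (f := Phi E' f ζ x) h4.1 h1
  have e5 : dM E E (fun z => R (Phi E' f ζ x z)) z = ContinuousLinearMap.id ℂ E := by
    have : (fun z => R (Phi E' f ζ x z)) =ᶠ[𝓝 z] id := h3
    unfold dM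
    rw [this.mfderiv_eq, mfderiv_id]
    rfl
  rw [e5] at e4
  have e6 := congrArg (fun T : E →L[ℂ] E => T ξ) e4
  have e7 : dM E (E' × (Fin d → ℂ)) (Phi E' f ζ x) z ξ = 0 := e3
  simp only [ContinuousLinearMap.id_apply, ContinuousLinearMap.comp_apply, e7, map_zero] at e6
  exact e6

theorem JP_ne_of_coord (e₀ : E ≃L[ℂ] (E' × (Fin d → ℂ)))
    (hζ : IsFibreCoord E E' f ζ x) : JP e₀ (dM E E' f x) (dV E ζ x) ≠ 0 := by
  unfold JP
  have h1 : Function.Injective (((dM E E' f x).prod (dV E ζ x)).comp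
      (e₀.symm : (E' × (Fin d → ℂ)) →L[ℂ] E)) := by
    rw [injective_iff_map_eq_zero]
    intro q hq
    have h2 : dM E E' f x (e₀.symm q) = 0 := (Prod.mk.inj hq).1
    have h3 : dV E ζ x (e₀.symm q) = 0 := (Prod.mk.inj hq).2
    have h4 := hζ.2 _ h2 h3
    simpa using h4
  have h2 : LinearMap.ker ((((dM E E' f x).prod (dV E ζ x)).comp
      (e₀.symm : (E' × (Fin d → ℂ)) →L[ℂ] E) : (E' × (Fin d → ℂ)) →L[ℂ] (E' × (Fin d → ℂ))) :
        (E' × (Fin d → ℂ)) →ₗ[ℂ] (E' × (Fin d → ℂ))) = ⊥ := LinearMap.ker_eq_bot.2 h1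
  have h3 := (LinearMap.isUnit_iff_ker_eq_bot _).2 h2
  exact (LinearMap.isUnit_det _ h3).ne_zero

/-- a fibre coordinate one of whose components is a given function transversal to the fibre -/
theorem exists_coord (e₀ : E ≃L[ℂ] (E' × (Fin d → ℂ))) (hf : HolM E E' f x)
    (hζ : IsFibreCoord E E' f ζ x) {g : X → ℂ} (hg : HolV E g x)
    (htr : ∃ ξ, dM E E' f x ξ = 0 ∧ dif E g x ξ ≠ 0) :
    ∃ i₀ : Fin d, IsFibreCoord E E' f (fun z => Function.update (ζ z) i₀ (g z)) x := by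
  have hζ' : HolV E ζ x := hζ.1
  have hb := bij_Phi e₀ hf hζ
  set L := LinearEquiv.ofBijective
    ((dV E (Phi E' f ζ x) x : E →L[ℂ] (E' × (Fin d → ℂ))) : E →ₗ[ℂ] (E' × (Fin d → ℂ))) hb with hL
  have hLa : ∀ ξ, dM E E' f x ξ = 0 → L ξ = (0, dV E ζ x ξ) := by
    intro ξ hξ
    have h1 : dV E (Phi E' f ζ x) x =
        (dV E (fun z => chartAt E' (f x) (f z)) x).prod (dV E ζ x) :=
      dV_prodMk (holV_chartf hf) hζ'
    show dV E (Phi E' f ζ x) x ξ = _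
    rw [h1, ContinuousLinearMap.prod_apply, (dV_chartf_eq_zero hf ξ).2 hξ]
  set ℓ : (Fin d → ℂ) →ₗ[ℂ] ℂ := ((dif E g x : E →L[ℂ] ℂ) : E →ₗ[ℂ] ℂ) ∘ₗ
    (L.symm : (E' × (Fin d → ℂ)) →ₗ[ℂ] E) ∘ₗ LinearMap.inr ℂ E' (Fin d → ℂ) with hℓ
  have hℓa : ∀ ξ, dM E E' f x ξ = 0 → ℓ (dV E ζ x ξ) = dif E g x ξ := by
    intro ξ hξ
    have h1 : L.symm ((0 : E'), dV E ζ x ξ) = ξ := by rw [← hLa ξ hξ, L.symm_apply_apply]
    show dif E g x (L.symm ((0 : E'), dV E ζ x ξ)) = _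
    rw [h1]
  obtain ⟨i₀, hi₀⟩ : ∃ i₀ : Fin d, ℓ (Pi.single i₀ 1) ≠ 0 := by
    by_contra hcon
    push Not at hcon
    obtain ⟨ξ, h1, h2⟩ := htr
    apply h2
    have h3 : ℓ = 0 := (Pi.basisFun ℂ (Fin d)).ext fun i => by
      rw [Pi.basisFun_apply, hcon i, LinearMap.zero_apply]
    rw [← hℓa ξ h1, h3, LinearMap.zero_apply]
  refine ⟨i₀, ?_⟩
  set ψ : X → (Fin d → ℂ) := fun z => Function.update (ζ z) i₀ (g z) with hψ
  have hψi : (fun z => ψ z i₀) = g := by funext z; simp [hψ]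
  have hψj : ∀ j, j ≠ i₀ → (fun z => ψ z j) = fun z => ζ z j := by
    intro j hj; funext z; simp [hψ, hj]
  have hψ' : HolV E ψ x := HolV.pi fun j => by
    by_cases hj : j = i₀
    · rw [hj, hψi]; exact hg
    · rw [hψj j hj]; exact hζ'.eval j
  refine ⟨hψ', fun ξ hξ hξ' => ?_⟩
  have hd0 : dV E ψ x ξ = 0 := hξ'
  have h1 : ∀ j, j ≠ i₀ → dV E ζ x ξ j = 0 := by
    intro j hj
    rw [dV_apply hζ' j ξ, ← hψj j hj, ← dV_apply hψ' j ξ, hd0]
    rfl
  have h2 : dif E g x ξ = 0 := by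
    rw [dif_eq_dV, ← hψi, ← dV_apply hψ' i₀ ξ, hd0]
    rfl
  have h3 : dV E ζ x ξ = dV E ζ x ξ i₀ • Pi.single i₀ (1 : ℂ) := by
    funext j
    by_cases hj : j = i₀
    · subst hj; simp
    · rw [h1 j hj, Pi.smul_apply, Pi.single_eq_of_ne hj, smul_zero]
  have h4 := hℓa ξ hξ
  rw [h3, map_smul, h2, smul_eq_mul, mul_eq_zero] at h4
  rcases h4 with h4 | h4
  · refine hζ.2 ξ hξ ?_
    show dV E ζ x ξ = 0
    rw [h3, h4, zero_smul]
  · exact absurd h4 hi₀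

end Coord

end Vale.Agent.P281.H495.UL
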