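import Vale.Agent.P281.H495.UL.Kap
import Vale.Agent.P281.H383.ULF.Fin
import Vale.Agent.P281.H969.TLN.Fin

/-!
# P281, T-UR (helper495): everything plugged
-/

open Set Filter Metric Vale.Agent.P281 Vale.Agent.P281.H713
open scoped Topology ContDiff Manifold

noncomputable section

namespace Vale.Agent.P281.H495.UL

/-- **T-UR** -/
theorem tur : TURStmt := tur_of H383.ULF.tul H969.TLN.tln kap

end Vale.Agent.P281.H495.UL
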