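import Vale.Agent.P281.H495.UL.Any
import Vale.Agent.P281.H64.TE.StatP

/-!
# P281, T-UR (helper495): `κ(f | Δ) ≤ kodF f Δ` for neat fibrations
-/

open Set Filter Metric Vale.Agent.P281 Vale.Agent.P281.H713
open scoped Topology ContDiff Manifold

noncomputable section

namespace Vale.Agent.P281.H495.UL

theorem kap : KapStmt := by
  intro n p X Y tX cX tY cY f Δ hf he
  exact H64.StatE.kap_self hf (Or.inl he)

end Vale.Agent.P281.H495.UL
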