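import Vale.Agent.P281.H308.TW.Hol
import Vale.Agent.P281.H716.Sys
import Vale.Agent.P281.H713.TZ.Pow
import Vale.Agent.P281.H713.TZ.S

/-!
# P281, rounding of the horizontal coefficients (helper495): the pull-backs of the forms of `Y` have
poles along vertical divisors only
-/

open Set Filter Metric Vale.Agent.P281 Vale.Agent.P281.MF Vale.Agent.P281.H713
open Vale.Agent.P281.H308.TW (hol_minors)
open scoped Topology ContDiff Manifold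

set_option linter.all false

noncomputable section

namespace Vale.Agent.P281.H495.UL

open Vale.Agent.P272.K (Chart Cm)

variable {n p : ℕ} {X Y : Type} [TopologicalSpace X] [ChartedSpace (Cm n) X]
  [IsManifold 𝓘(ℂ, Cm n) ω X] [TopologicalSpace Y] [ChartedSpace (Cm p) Y]
  [IsManifold 𝓘(ℂ, Cm p) ω Y]

theorem pullSec_iff {m : ℕ} {K : Set X → ℕ} {𝒢 : Set (Set Y)} {f : X → Y} {σ : Y → ℂ} :
    TZ.S.PullSec (Cm n) (Cm p) m K 𝒢 (id : X → X) f (TZ.S.minors n p m (id : X → X) f) σ ↔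
      TL.IsPullSection (n := n) (p := p) m K 𝒢 (id : X → X) f σ :=
  ⟨fun h => ⟨h.1, h.2⟩, fun h => ⟨h.mero, h.pole⟩⟩

/-- **poles along a divisor which is not mapped in the poles on `Y` do not occur** -/
theorem pull_vert {f : X → Y} (hf : ContMDiff 𝓘(ℂ, Cm n) 𝓘(ℂ, Cm p) ω f) {m : ℕ}
    {K K₀ : Set X → ℕ} {𝒢 : Set (Set Y)} (h𝒢f : 𝒢.Finite) (h𝒢 : ∀ G ∈ 𝒢, J.IsPrime (Cm p) G)
    {σ : Y → ℂ} (hσ : TL.IsPullSection (n := n) (p := p) m K 𝒢 (id : X → X) f σ)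
    (hle : ∀ D, K₀ D ≤ K D)
    (hh : ∀ D, K₀ D ≠ K D → J.IsPrime (Cm n) D ∧ ∃ z ∈ D, f z ∉ ⋃₀ 𝒢) :
    TL.IsPullSection (n := n) (p := p) m K₀ 𝒢 (id : X → X) f σ := by
  classical
  have hfh : ∀ x, HolM (Cm n) (Cm p) f x := fun x => hf x
  refine ⟨hσ.mero, fun x => ?_⟩
  obtain ⟨T, g, hT, hg, ha⟩ := hσ.pole x
  refine ⟨T, g, fun D hD => hT D (by have := hle D; omega), hg, fun I => ?_⟩
  obtain ⟨a, hah, hae⟩ := ha I
  have hah : HolV (Cm n) a x := hah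
  have hg' : ∀ D ∈ T, IsLocalEq (Cm n) D (g D) x := hg
  set P : X → ℂ := fun z => ∏ D ∈ T, g D z ^ (K D - K₀ D) with hP
  set R : X → ℂ := fun z => ∏ D ∈ T, g D z ^ K₀ D with hR
  set H : X → ℂ := fun z => σ (f z) * TL.minors (n := n) (p := p) m (id : X → X) f x z I * R z
    with hH
  have hKP : ∀ z, ∏ D ∈ T, g D z ^ K D = R z * P z := by
    intro z
    simp only [hP, hR]
    rw [← Finset.prod_mul_distrib]
    refine Finset.prod_congr rfl fun D _ => ?_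
    rw [← pow_add, Nat.add_sub_cancel' (hle D)]
  have hSc : IsClosed (⋃₀ 𝒢) := by
    rw [sUnion_eq_biUnion]
    exact h𝒢f.isClosed_biUnion fun G hG => (h𝒢 G hG).1
  -- a good neighbourhood
  have hev : ∀ᶠ z in 𝓝 x, (∀ D ∈ T, IsLocalEq (Cm n) D (g D) z) ∧
      z ∈ (chartAt (Cm n) x).source ∧ HolV (Cm n) a z ∧
      ((∀ G ∈ 𝒢, f z ∉ G) → ∏ D ∈ T, g D z ^ K D ≠ 0 → H z * P z = a z) := by
    have h1 : ∀ᶠ z in 𝓝 x, ∀ D ∈ T, IsLocalEq (Cm n) D (g D) z := by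
      rw [Filter.eventually_all_finset]
      exact fun D hD => (hg' D hD).eventually
    filter_upwards [h1, (chartAt (Cm n) x).open_source.mem_nhds (mem_chart_source _ x),
      hah.eventually, hae] with z a1 a2 a3 a4
    refine ⟨a1, a2, a3, fun b1 b2 => ?_⟩
    have b3 := a4 z rfl b1 b2
    rw [← b3, hKP z, hH]
    ring
  have hfr : ∀ z, (∀ D ∈ T, IsLocalEq (Cm n) D (g D) z) → ∃ᶠ w in 𝓝 z, ∏ D ∈ T, g D w ≠ 0 := by
    intro z hz
    refine H716.IsSys.freq_prod (n := n) T g z (fun D hD => (hz D hD).holAt.eventually) fun D hD => ?_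
    exact leq_frequently_ne (hz D hD)
  have hne : ∀ (z : X) (k : Set X → ℕ), ∏ D ∈ T, g D z ≠ 0 → ∏ D ∈ T, g D z ^ k D ≠ 0 := by
    intro z k hz
    exact Finset.prod_ne_zero_iff.2 fun D hD => pow_ne_zero _ (Finset.prod_ne_zero_iff.1 hz D hD)
  have hHh : ∀ z, z ∈ (chartAt (Cm n) x).source → (∀ D ∈ T, IsLocalEq (Cm n) D (g D) z) →
      f z ∉ ⋃₀ 𝒢 → HolV (Cm n) H z := by
    intro z h1 h2 h3
    refine (hol_minors hfh hσ.mero h1 h3 I).mul ?_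
    exact HolV.prod fun D hD => HolV.pow (h2 D hD).holAt _
  have hPh : ∀ z, (∀ D ∈ T, IsLocalEq (Cm n) D (g D) z) → HolV (Cm n) P z := fun z h2 =>
    HolV.prod fun D hD => HolV.pow (h2 D hD).holAt _
  -- off the poles, `a = H P`
  have hoff : ∀ z, (∀ᶠ z' in 𝓝 z, (∀ D ∈ T, IsLocalEq (Cm n) D (g D) z') ∧
      z' ∈ (chartAt (Cm n) x).source ∧ HolV (Cm n) a z' ∧
      ((∀ G ∈ 𝒢, f z' ∉ G) → ∏ D ∈ T, g D z' ^ K D ≠ 0 → H z' * P z' = a z')) →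
      f z ∉ ⋃₀ 𝒢 → H z * P z = a z := by
    intro z hz hz0
    obtain ⟨c1, c2, c3, -⟩ := hz.self_of_nhds
    have h1 : Tendsto (fun w => H w * P w) (𝓝 z) (𝓝 (H z * P z)) :=
      ((hHh z c2 c1 hz0).mul (hPh z c1)).continuousAt
    have h2 : Tendsto a (𝓝 z) (𝓝 (a z)) := c3.continuousAt
    refine tendsto_nhds_unique_of_frequently_eq h1 h2 ?_
    have h3 : ∀ᶠ w in 𝓝 z, f w ∉ ⋃₀ 𝒢 :=
      hf.continuous.continuousAt.eventually (hSc.isOpen_compl.mem_nhds hz0)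
    refine ((hfr z c1).and_eventually (hz.and h3)).mono ?_
    rintro w ⟨d1, ⟨-, -, -, d2⟩, d3⟩
    exact d2 (fun G hG hGw => d3 ⟨G, hG, hGw⟩) (hne w K d1)
  -- the extension
  obtain ⟨Q, hQ, hQe⟩ := extendM (Num := a) (Den := P) hah (hPh x hg') (by
    intro hcon
    obtain ⟨w, hw, hw'⟩ := ((hfr x hg').and_eventually hcon).exists
    exact hne w _ hw hw') (by
    filter_upwards [eventually_eventually_nhds.2 hev] with z hz hPz
    obtain ⟨D, hDT, hD0⟩ := Finset.prod_eq_zero_iff.1 hPz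
    have hDK : K D - K₀ D ≠ 0 := by
      intro h0
      rw [h0, pow_zero] at hD0
      exact one_ne_zero hD0
    have hgz : g D z = 0 := pow_eq_zero_iff hDK |>.1 hD0
    obtain ⟨hpr, z₀, hz₀D, hz₀⟩ := hh D (by omega)
    have hzD : z ∈ D := (hz.self_of_nhds.1 D hDT).mem_iff.2 hgz
    have hcl := dense_in_prime (W := ℂ) (E := Cm n) (D := D) (A := f ⁻¹' (⋃₀ 𝒢)) hpr (fun w _ => by
      obtain ⟨d, hd, hdW⟩ := TZ.exists_eqn (p := p) h𝒢f h𝒢 (f w)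
      refine ⟨fun w => d (f w), HolV.comp (E' := Cm p) (h := d) hd (hfh w), ?_⟩
      filter_upwards [hf.continuous.continuousAt.eventually hdW] with w' hw' _
      exact hw') ⟨z₀, hz₀D, hz₀⟩ hzD
    rw [mem_closure_iff_nhds] at hcl ⊢
    intro t ht
    obtain ⟨y, ⟨hyt, hyev⟩, hyD, hyA⟩ := hcl _ (inter_mem ht (eventually_eventually_nhds.2 hz))
    have hyev : ∀ᶠ z' in 𝓝 y, (∀ D ∈ T, IsLocalEq (Cm n) D (g D) z') ∧
      z' ∈ (chartAt (Cm n) x).source ∧ HolV (Cm n) a z' ∧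
      ((∀ G ∈ 𝒢, f z' ∉ G) → ∏ D ∈ T, g D z' ^ K D ≠ 0 → H z' * P z' = a z') := hyev
    obtain ⟨c1, c2, c3, -⟩ := hyev.self_of_nhds
    refine ⟨y, hyt, ?_, ‖H y‖ + 1, ?_⟩
    · show P y = 0
      refine Finset.prod_eq_zero hDT ?_
      rw [(c1 D hDT).mem_iff.1 hyD, zero_pow hDK]
    · have h3 : ∀ᶠ w in 𝓝 y, f w ∉ ⋃₀ 𝒢 :=
        hf.continuous.continuousAt.eventually (hSc.isOpen_compl.mem_nhds hyA)
      have h4 : ∀ᶠ w in 𝓝 y, ‖H w‖ < ‖H y‖ + 1 :=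
        (hHh y c2 c1 hyA).continuousAt.norm.eventually_lt continuousAt_const (by simp)
      filter_upwards [hyev.eventually_nhds, h3, h4] with w d1 d2 d3
      rw [← hoff w d1 d2, norm_mul]
      exact mul_le_mul_of_nonneg_right d3.le (norm_nonneg _))
  refine ⟨Q, hQ, ?_⟩
  filter_upwards [hev.eventually_nhds, hQe.eventually_nhds, hQ.eventually] with z a1 a2 a3
  intro z' hz' hz𝒢 _
  have hz' : z' = z := hz'
  subst hz'
  have hz0 : f z' ∉ ⋃₀ 𝒢 := fun ⟨G, hG, hGz⟩ => hz𝒢 G hG hGz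
  obtain ⟨c1, c2, c3, -⟩ := a1.self_of_nhds
  show H z' = Q z'
  have h1 : Tendsto H (𝓝 z') (𝓝 (H z')) := (hHh z' c2 c1 hz0).continuousAt
  have h2 : Tendsto Q (𝓝 z') (𝓝 (Q z')) := a3.continuousAt
  refine tendsto_nhds_unique_of_frequently_eq h1 h2 ?_
  have h3 : ∀ᶠ w in 𝓝 z', f w ∉ ⋃₀ 𝒢 :=
    hf.continuous.continuousAt.eventually (hSc.isOpen_compl.mem_nhds hz0)
  refine ((hfr z' c1).and_eventually (a1.eventually_nhds.and (a2.and h3))).mono ?_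
  rintro w ⟨d1, d2, d3, d4⟩
  have h5 := hoff w d2 d4
  rw [d3, mul_comm] at h5
  exact mul_left_cancel₀ (hne w _ d1) h5

/-- **`kodF` depends on the vertical coefficients only** -/
theorem kodF_vert {f : X → Y} (hf : ContMDiff 𝓘(ℂ, Cm n) 𝓘(ℂ, Cm p) ω f) {Δ Δ₀ : Set X → ℝ}
    (h0 : ∀ D, 0 ≤ Δ₀ D)
    (hh : ∀ D, Δ₀ D < Δ D → J.IsPrime (Cm n) D ∧ f '' D = univ) :
    TZ.S.kodF n p Δ (id : X → X) f ≤ TZ.S.kodF n p Δ₀ (id : X → X) f := by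
  refine iSup₂_le fun l hl => ?_
  obtain ⟨m, K, 𝒢, σ, y, hm, hK, h𝒢f, h𝒢, hσ, hy, hσ0, hsurj⟩ := hl
  refine le_iSup₂_of_le l ⟨m, fun D => min (K D) ⌊(m : ℝ) * Δ₀ D⌋₊, 𝒢, σ, y, hm,
    fun D => ?_, h𝒢f, h𝒢, fun b => ?_, hy, hσ0, hsurj⟩ le_rfl
  · refine le_trans ?_ (Nat.floor_le (mul_nonneg (Nat.cast_nonneg m) (h0 D)))
    exact_mod_cast min_le_right _ _
  · refine pullSec_iff.2 (pull_vert hf h𝒢f h𝒢 (pullSec_iff.1 (hσ b)) (fun D => min_le_left _ _) fun D hD => ?_)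
    have h1 : ⌊(m : ℝ) * Δ₀ D⌋₊ < K D := by
      by_contra h2
      exact hD (min_eq_left (not_lt.1 h2))
    have h2 : (m : ℝ) * Δ₀ D < K D :=
      (Nat.floor_lt (mul_nonneg (Nat.cast_nonneg m) (h0 D))).1 h1
    have h3 : Δ₀ D < Δ D := by
      have h4 := h2.trans_le (hK D)
      exact lt_of_mul_lt_mul_left h4 (Nat.cast_nonneg m)
    obtain ⟨h4, h5⟩ := hh D h3
    obtain ⟨z, hzD, hz⟩ : y ∈ f '' D := by rw [h5]; exact mem_univ y
    refine ⟨h4, z, hzD, ?_⟩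
    rw [hz]
    rintro ⟨G, hG, hGy⟩
    exact hy G hG hGy

end Vale.Agent.P281.H495.UL
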